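import Vale.Agent.P121.Kernel

/-!
# One branch of the optimal triples

For `x` near `0` we construct `(brT x, brS x)` near `(p, -p)` so that `(x, brT x, brS x)` is the
only triple minimising `c - φ` in its neighbourhood.
-/

open MeasureTheory Metric
open scoped RealInnerProductSpace NNReal

namespace Vale.Agent.P121

/-- First unit vector. -/
noncomputable def ptP : Pt := EuclideanSpace.single 0 1

/-- Concavity of the potentials. -/
noncomputable def bigM : ℝ := 100000

/-- Linear part of the potential near `-p`. -/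
noncomputable def lam : Pt := force (-ptP) + force (-ptP - ptP)

/-- Central ball. -/
noncomputable def domA : Set Pt := closedBall 0 (1 / 10 ^ 11)

/-- Ball for the fixed point. -/
noncomputable def domZ : Set Pt := closedBall (-ptP) (1 / 10 ^ 6)

/-- The argument of `forceInv` in the first stationarity equation. -/
noncomputable def argV (x z : Pt) : Pt := -(bigM • x) - force (x - z)

/-- The second point determined by the first and the third. -/
noncomputable def ptY (x z : Pt) : Pt := x - forceInv (argV x z)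

/-- Fixed-point map of the second stationarity equation. -/
noncomputable def fixMap (x z : Pt) : Pt :=
  -ptP + bigM⁻¹ • (lam - force (z - x) - force (z - ptY x z))

lemma norm_ptP : ‖ptP‖ = 1 := by simp [ptP]

lemma ptP_ne : ptP ≠ 0 := fun h => by simpa [h] using norm_ptP

lemma force_ptP : force ptP = -ptP := by simp [force, norm_ptP]

lemma forceInv_ptP : forceInv ptP = -ptP := by
  have h := forceInv_force (u := -ptP) (by simpa using ptP_ne)
  rwa [force_neg, force_ptP, neg_neg] at h

lemma norm_two_ptP : ‖-ptP - ptP‖ = 2 := by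
  rw [show -ptP - ptP = (-2 : ℝ) • ptP by module, norm_smul, norm_ptP]; norm_num

lemma norm_force_two : ‖force (-ptP - ptP)‖ = 1 / 4 := by
  rw [norm_force (fun h => by simpa [h] using norm_two_ptP), norm_two_ptP]; norm_num

lemma domA_bound {x : Pt} (h : x ∈ domA) : ‖x‖ ≤ 1 / 10 ^ 11 := mem_closedBall_zero_iff.1 h

lemma domZ_bound {z : Pt} (h : z ∈ domZ) : ‖z + ptP‖ ≤ 1 / 10 ^ 6 := by
  simpa [domZ, mem_closedBall, dist_eq_norm] using h

lemma near_add_norm {a b : Pt} {c e : ℝ} (h : ‖a - b‖ ≤ e) (hc : c + e ≤ ‖b‖) : c ≤ ‖a‖ := by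
  have := norm_sub_norm_le b a
  rw [norm_sub_rev] at h
  linarith

lemma sub_domZ_norm {x z : Pt} (hx : x ∈ domA) (hz : z ∈ domZ) : 1 / 2 ≤ ‖x - z‖ := by
  refine near_add_norm (b := ptP) (e := 1 / 10) ?_ (by rw [norm_ptP]; norm_num)
  have h1 := domA_bound hx
  have h2 := domZ_bound hz
  rw [show x - z - ptP = x - (z + ptP) by abel]
  have := norm_sub_le x (z + ptP)
  linarith

lemma argV_near {x z : Pt} (hx : x ∈ domA) (hz : z ∈ domZ) : ‖argV x z - ptP‖ ≤ 4 / 10 ^ 5 := by
  have h1 := domA_bound hx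
  have h2 := domZ_bound hz
  have hf := force_lipschitz (sub_domZ_norm hx hz) (v := ptP) (by rw [norm_ptP]; norm_num)
  have e : argV x z - ptP = -(bigM • x) - (force (x - z) - force ptP) := by
    rw [argV, force_ptP]; abel
  have hd : ‖x - z - ptP‖ ≤ 1 / 10 ^ 11 + 1 / 10 ^ 6 := by
    rw [show x - z - ptP = x - (z + ptP) by abel]
    have := norm_sub_le x (z + ptP)
    linarith
  rw [e]
  refine (norm_sub_le _ _).trans ?_
  rw [norm_neg, norm_smul, Real.norm_eq_abs, bigM, abs_of_pos (by norm_num)]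
  nlinarith

lemma argV_norm {x z : Pt} (hx : x ∈ domA) (hz : z ∈ domZ) : 1 / 5 ≤ ‖argV x z‖ :=
  near_add_norm (argV_near hx hz) (by rw [norm_ptP]; norm_num)

lemma ptY_near {x z : Pt} (hx : x ∈ domA) (hz : z ∈ domZ) : ‖ptY x z - ptP‖ ≤ 1 / 500 := by
  have h1 := domA_bound hx
  have hf := forceInv_lipschitz (argV_norm hx hz) (v := ptP) (by rw [norm_ptP]; norm_num)
  have e : ptY x z - ptP = x - (forceInv (argV x z) - forceInv ptP) := by
    rw [ptY, forceInv_ptP]; abel
  have := argV_near hx hz
  rw [e]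
  refine (norm_sub_le _ _).trans ?_
  linarith

lemma z_sub_y_norm {z y : Pt} (hz : ‖z + ptP‖ ≤ 1 / 10) (hy : ‖y - ptP‖ ≤ 1 / 10) :
    1 / 2 ≤ ‖z - y‖ := by
  refine near_add_norm (b := -ptP - ptP) (e := 1 / 5) ?_ (by rw [norm_two_ptP]; norm_num)
  rw [show z - y - (-ptP - ptP) = (z + ptP) - (y - ptP) by abel]
  have := norm_sub_le (z + ptP) (y - ptP)
  linarith

lemma fixMap_mem {x z : Pt} (hx : x ∈ domA) (hz : z ∈ domZ) : fixMap x z ∈ domZ := by
  have h1 := domA_bound hx
  have h2 := domZ_bound hz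
  have h3 := ptY_near hx hz
  have a := force_lipschitz (u := -ptP) (v := z - x) (by rw [norm_neg, norm_ptP]; norm_num)
    (by rw [norm_sub_rev]; exact sub_domZ_norm hx hz)
  have b := force_lipschitz (u := -ptP - ptP) (v := z - ptY x z) (by rw [norm_two_ptP]; norm_num)
    (z_sub_y_norm (by linarith) (by linarith))
  have d1 : ‖-ptP - (z - x)‖ ≤ 1 / 10 ^ 6 + 1 / 10 ^ 11 := by
    rw [show -ptP - (z - x) = x - (z + ptP) by abel]
    have := norm_sub_le x (z + ptP)
    linarith
  have d2 : ‖-ptP - ptP - (z - ptY x z)‖ ≤ 1 / 10 ^ 6 + 1 / 500 := by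
    rw [show -ptP - ptP - (z - ptY x z) = (ptY x z - ptP) - (z + ptP) by abel]
    have := norm_sub_le (ptY x z - ptP) (z + ptP)
    linarith
  rw [domZ, mem_closedBall, dist_eq_norm, fixMap, add_sub_cancel_left, norm_smul, Real.norm_eq_abs,
    bigM, abs_of_pos (by norm_num), lam,
    show force (-ptP) + force (-ptP - ptP) - force (z - x) - force (z - ptY x z)
      = (force (-ptP) - force (z - x)) + (force (-ptP - ptP) - force (z - ptY x z)) by abel]
  have := norm_add_le (force (-ptP) - force (z - x)) (force (-ptP - ptP) - force (z - ptY x z))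
  linarith

lemma ptY_lip {x x' z z' : Pt} (hx : x ∈ domA) (hx' : x' ∈ domA) (hz : z ∈ domZ) (hz' : z' ∈ domZ) :
    ‖ptY x z - ptY x' z'‖ ≤ 3000961 * ‖x - x'‖ + 960 * ‖z - z'‖ := by
  have hf := force_lipschitz (sub_domZ_norm hx hz) (sub_domZ_norm hx' hz')
  have hi := forceInv_lipschitz (argV_norm hx hz) (argV_norm hx' hz')
  have ev : argV x z - argV x' z' = -(bigM • (x - x')) - (force (x - z) - force (x' - z')) := by
    rw [argV, argV, smul_sub]; abel
  have hv : ‖argV x z - argV x' z'‖ ≤ 100032 * ‖x - x'‖ + 32 * ‖z - z'‖ := by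
    rw [ev]
    refine (norm_sub_le _ _).trans ?_
    rw [norm_neg, norm_smul, Real.norm_eq_abs, bigM, abs_of_pos (by norm_num)]
    have hd : ‖x - z - (x' - z')‖ ≤ ‖x - x'‖ + ‖z - z'‖ := by
      rw [show x - z - (x' - z') = (x - x') - (z - z') by abel]; exact norm_sub_le _ _
    linarith
  have e : ptY x z - ptY x' z' = (x - x') - (forceInv (argV x z) - forceInv (argV x' z')) := by
    rw [ptY, ptY]; abel
  rw [e]
  refine (norm_sub_le _ _).trans ?_
  linarith

lemma fixMap_lip {x x' z z' : Pt} (hx : x ∈ domA) (hx' : x' ∈ domA) (hz : z ∈ domZ)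
    (hz' : z' ∈ domZ) : ‖fixMap x z - fixMap x' z'‖ ≤ 961 * ‖x - x'‖ + 1 / 2 * ‖z - z'‖ := by
  have h2 := domZ_bound hz
  have h2' := domZ_bound hz'
  have h3 := ptY_near hx hz
  have h3' := ptY_near hx' hz'
  have a := force_lipschitz (u := z' - x') (v := z - x)
    (by rw [norm_sub_rev]; exact sub_domZ_norm hx' hz')
    (by rw [norm_sub_rev]; exact sub_domZ_norm hx hz)
  have b := force_lipschitz (u := z' - ptY x' z') (v := z - ptY x z)
    (z_sub_y_norm (by linarith) (by linarith)) (z_sub_y_norm (by linarith) (by linarith))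
  have hy := ptY_lip hx hx' hz hz'
  have d1 : ‖z' - x' - (z - x)‖ ≤ ‖x - x'‖ + ‖z - z'‖ := by
    rw [show z' - x' - (z - x) = (x - x') - (z - z') by abel]; exact norm_sub_le _ _
  have d2 : ‖z' - ptY x' z' - (z - ptY x z)‖ ≤ ‖ptY x z - ptY x' z'‖ + ‖z - z'‖ := by
    rw [show z' - ptY x' z' - (z - ptY x z) = (ptY x z - ptY x' z') - (z - z') by abel]
    exact norm_sub_le _ _
  have e : fixMap x z - fixMap x' z' = bigM⁻¹ • ((force (z' - x') - force (z - x))
      + (force (z' - ptY x' z') - force (z - ptY x z))) := by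
    simp only [fixMap]; module
  have := norm_add_le (force (z' - x') - force (z - x))
    (force (z' - ptY x' z') - force (z - ptY x z))
  rw [e, norm_smul, Real.norm_eq_abs, bigM, abs_of_pos (by norm_num)]
  linarith [norm_nonneg (x - x'), norm_nonneg (z - z')]

lemma exists_fixed {x : Pt} (hx : x ∈ domA) : ∃ z ∈ domZ, fixMap x z = z := by
  have hmaps : Set.MapsTo (fixMap x) domZ domZ := fun z hz => fixMap_mem hx hz
  have hc : ContractingWith (1 / 2) (hmaps.restrict (fixMap x) domZ domZ) := by
    refine ⟨by norm_num, LipschitzWith.of_dist_le_mul fun z z' => ?_⟩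
    rw [Subtype.dist_eq, Subtype.dist_eq, Set.MapsTo.val_restrict_apply,
      Set.MapsTo.val_restrict_apply, dist_eq_norm, dist_eq_norm]
    have := fixMap_lip hx hx z.2 z'.2
    simp only [sub_self, norm_zero, mul_zero, zero_add] at this
    simpa using this
  have hs : IsComplete domZ := isClosed_closedBall.isComplete
  have hp : -ptP ∈ domZ := mem_closedBall_self (by norm_num)
  obtain ⟨z, hz, hfix, -⟩ := hc.exists_fixedPoint' hs hmaps hp (edist_ne_top _ _)
  exact ⟨z, hz, hfix⟩

open Classical in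
/-- Third point of the branch over `x`. -/
noncomputable def brS (x : Pt) : Pt := if h : x ∈ domA then (exists_fixed h).choose else -ptP

/-- Second point of the branch over `x`. -/
noncomputable def brT (x : Pt) : Pt := ptY x (brS x)

lemma brS_mem {x : Pt} (hx : x ∈ domA) : brS x ∈ domZ := by
  rw [brS, dif_pos hx]; exact (exists_fixed hx).choose_spec.1

lemma brS_fix {x : Pt} (hx : x ∈ domA) : fixMap x (brS x) = brS x := by
  rw [brS, dif_pos hx]; exact (exists_fixed hx).choose_spec.2

lemma zero_mem_domA : (0 : Pt) ∈ domA := mem_closedBall_self (by norm_num)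

lemma brS_lip {x x' : Pt} (hx : x ∈ domA) (hx' : x' ∈ domA) :
    ‖brS x - brS x'‖ ≤ 1922 * ‖x - x'‖ := by
  have := fixMap_lip hx hx' (brS_mem hx) (brS_mem hx')
  rw [brS_fix hx, brS_fix hx'] at this
  linarith

lemma brT_lip {x x' : Pt} (hx : x ∈ domA) (hx' : x' ∈ domA) :
    ‖brT x - brT x'‖ ≤ 5000000 * ‖x - x'‖ := by
  have := ptY_lip hx hx' (brS_mem hx) (brS_mem hx')
  have := brS_lip hx hx'
  simp only [brT]
  linarith [norm_nonneg (x - x')]

lemma ptY_zero : ptY 0 (-ptP) = ptP := by
  simp [ptY, argV, force_ptP, forceInv_ptP]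

lemma brS_zero : brS 0 = -ptP := by
  have hp : -ptP ∈ domZ := mem_closedBall_self (by norm_num)
  have h0 : fixMap 0 (-ptP) = -ptP := by
    rw [fixMap, ptY_zero, lam, sub_zero]; simp
  have := fixMap_lip zero_mem_domA zero_mem_domA (brS_mem zero_mem_domA) hp
  rw [brS_fix zero_mem_domA, h0, sub_self, norm_zero, mul_zero, zero_add] at this
  have h : ‖brS 0 - -ptP‖ = 0 := le_antisymm (by linarith) (norm_nonneg _)
  exact sub_eq_zero.1 (norm_eq_zero.1 h)

lemma brT_zero : brT 0 = ptP := by rw [brT, brS_zero, ptY_zero]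

lemma brS_near {x : Pt} (hx : x ∈ domA) : ‖brS x + ptP‖ ≤ 1 / 10 ^ 7 := by
  have := brS_lip hx zero_mem_domA
  rw [brS_zero, sub_neg_eq_add, sub_zero] at this
  linarith [domA_bound hx]

lemma brT_near {x : Pt} (hx : x ∈ domA) : ‖brT x - ptP‖ ≤ 1 / 10 ^ 4 := by
  have := brT_lip hx zero_mem_domA
  rw [brT_zero, sub_zero] at this
  linarith [domA_bound hx]

lemma stationary_x {x : Pt} (hx : x ∈ domA) :
    bigM • x + force (x - brT x) + force (x - brS x) = 0 := by
  have hv : argV x (brS x) ≠ 0 := fun h => by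
    have := argV_norm hx (brS_mem hx); rw [h, norm_zero] at this; linarith
  rw [brT, ptY, sub_sub_cancel, force_forceInv hv, argV]; abel

lemma stationary_z {x : Pt} (hx : x ∈ domA) :
    bigM • (brS x + ptP) + force (brS x - x) + force (brS x - brT x) = lam := by
  have h := brS_fix hx
  have hM : bigM ≠ 0 := by norm_num [bigM]
  have h' : brS x + ptP = bigM⁻¹ • (lam - force (brS x - x) - force (brS x - brT x)) := by
    conv_lhs => rw [← h]
    simp only [fixMap, brT]; abel
  rw [h', smul_inv_smul₀ hM]; abel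

lemma brT_inverse_lip {x x' : Pt} (hx : x ∈ domA) (hx' : x' ∈ domA) :
    ‖x - x'‖ ≤ ‖brT x - brT x'‖ := by
  have hT : ∀ a ∈ domA, 1 / 2 ≤ ‖a - brT a‖ := fun a ha => by
    refine near_add_norm (b := -ptP) (e := 1 / 10) ?_ (by rw [norm_neg, norm_ptP]; norm_num)
    rw [show a - brT a - -ptP = a - (brT a - ptP) by abel]
    linarith [norm_sub_le a (brT a - ptP), domA_bound ha, brT_near ha]
  have a := force_lipschitz (hT x' hx') (hT x hx)
  have b := force_lipschitz (sub_domZ_norm hx' (brS_mem hx')) (sub_domZ_norm hx (brS_mem hx))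
  have hzy : ∀ a ∈ domA, 1 / 2 ≤ ‖brS a - brT a‖ := fun a ha =>
    z_sub_y_norm (by linarith [brS_near ha]) (by linarith [brT_near ha])
  have c := force_lipschitz (hzy x' hx') (hzy x hx)
  have b' := force_lipschitz (u := brS x' - x') (v := brS x - x)
    (by rw [norm_sub_rev]; exact sub_domZ_norm hx' (brS_mem hx'))
    (by rw [norm_sub_rev]; exact sub_domZ_norm hx (brS_mem hx))
  have e1 : bigM • (x - x') = (force (x' - brT x') - force (x - brT x))
      + (force (x' - brS x') - force (x - brS x)) := by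
    linear_combination (norm := module) stationary_x hx - stationary_x hx'
  have e2 : bigM • (brS x - brS x') = (force (brS x' - x') - force (brS x - x))
      + (force (brS x' - brT x') - force (brS x - brT x)) := by
    linear_combination (norm := module) stationary_z hx - stationary_z hx'
  have n1 : 100000 * ‖x - x'‖ ≤ _ := (le_of_eq (by
    rw [← e1, norm_smul, Real.norm_eq_abs, bigM, abs_of_pos (by norm_num)])).trans (norm_add_le _ _)
  have n2 : 100000 * ‖brS x - brS x'‖ ≤ _ := (le_of_eq (by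
    rw [← e2, norm_smul, Real.norm_eq_abs, bigM, abs_of_pos (by norm_num)])).trans (norm_add_le _ _)
  have d1 : ‖x' - brT x' - (x - brT x)‖ ≤ ‖brT x - brT x'‖ + ‖x - x'‖ := by
    rw [show x' - brT x' - (x - brT x) = (brT x - brT x') - (x - x') by abel]
    exact norm_sub_le _ _
  have d2 : ‖x' - brS x' - (x - brS x)‖ ≤ ‖brS x - brS x'‖ + ‖x - x'‖ := by
    rw [show x' - brS x' - (x - brS x) = (brS x - brS x') - (x - x') by abel]
    exact norm_sub_le _ _
  have d2' : ‖brS x' - x' - (brS x - x)‖ ≤ ‖brS x - brS x'‖ + ‖x - x'‖ := by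
    rw [show brS x' - x' - (brS x - x) = (x - x') - (brS x - brS x') by abel, add_comm]
    exact norm_sub_le _ _
  have d3 : ‖brS x' - brT x' - (brS x - brT x)‖ ≤ ‖brT x - brT x'‖ + ‖brS x - brS x'‖ := by
    rw [show brS x' - brT x' - (brS x - brT x) = (brT x - brT x') - (brS x - brS x') by abel]
    exact norm_sub_le _ _
  linarith [norm_nonneg (brT x - brT x'), norm_nonneg (x - x'), norm_nonneg (brS x - brS x')]

lemma brS_inverse_lip {x x' : Pt} (hx : x ∈ domA) (hx' : x' ∈ domA) :
    ‖x - x'‖ ≤ 1400 * ‖brS x - brS x'‖ := by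
  have hT : ∀ a ∈ domA, 1 / 2 ≤ ‖a - brT a‖ := fun a ha => by
    refine near_add_norm (b := -ptP) (e := 1 / 10) ?_ (by rw [norm_neg, norm_ptP]; norm_num)
    rw [show a - brT a - -ptP = a - (brT a - ptP) by abel]
    linarith [norm_sub_le a (brT a - ptP), domA_bound ha, brT_near ha]
  have hzy : ∀ a ∈ domA, 1 / 2 ≤ ‖brS a - brT a‖ ∧ 1 / 5 ≤ ‖force (brS a - brT a)‖ := by
    intro a ha
    have h1 := z_sub_y_norm (z := brS a) (y := brT a) (by linarith [brS_near ha])
      (by linarith [brT_near ha])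
    refine ⟨h1, ?_⟩
    refine near_add_norm (b := force (-ptP - ptP)) (e := 1 / 20) ?_ (by rw [norm_force_two]; norm_num)
    refine (force_lipschitz h1 (v := -ptP - ptP) (by rw [norm_two_ptP]; norm_num)).trans ?_
    rw [show brS a - brT a - (-ptP - ptP) = (brS a + ptP) - (brT a - ptP) by abel]
    linarith [norm_sub_le (brS a + ptP) (brT a - ptP), brS_near ha, brT_near ha]
  have a := force_lipschitz (hT x' hx') (hT x hx)
  have b := force_lipschitz (sub_domZ_norm hx' (brS_mem hx')) (sub_domZ_norm hx (brS_mem hx))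
  have e1 : bigM • (x - x') = (force (x' - brT x') - force (x - brT x))
      + (force (x' - brS x') - force (x - brS x)) := by
    linear_combination (norm := module) stationary_x hx - stationary_x hx'
  have n1 : 100000 * ‖x - x'‖ ≤ _ := (le_of_eq (by
    rw [← e1, norm_smul, Real.norm_eq_abs, bigM, abs_of_pos (by norm_num)])).trans (norm_add_le _ _)
  have d1 : ‖x' - brT x' - (x - brT x)‖ ≤ ‖brT x - brT x'‖ + ‖x - x'‖ := by
    rw [show x' - brT x' - (x - brT x) = (brT x - brT x') - (x - x') by abel]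
    exact norm_sub_le _ _
  have d2 : ‖x' - brS x' - (x - brS x)‖ ≤ ‖brS x - brS x'‖ + ‖x - x'‖ := by
    rw [show x' - brS x' - (x - brS x) = (brS x - brS x') - (x - x') by abel]
    exact norm_sub_le _ _
  have hne : ∀ a ∈ domA, brS a - brT a ≠ 0 := fun a ha h => by
    have := (hzy a ha).1; rw [h, norm_zero] at this; linarith
  have hi := forceInv_lipschitz (hzy x hx).2 (hzy x' hx').2
  rw [forceInv_force (hne x hx), forceInv_force (hne x' hx')] at hi
  have hg : ‖force (brS x - brT x) - force (brS x' - brT x')‖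
      ≤ 100000 * ‖brS x - brS x'‖ + 32 * (‖brS x - brS x'‖ + ‖x - x'‖) := by
    have e2 : force (brS x - brT x) - force (brS x' - brT x')
        = (force (brS x' - x') - force (brS x - x)) - bigM • (brS x - brS x') := by
      linear_combination (norm := module) stationary_z hx - stationary_z hx'
    have b' := force_lipschitz (u := brS x' - x') (v := brS x - x)
      (by rw [norm_sub_rev]; exact sub_domZ_norm hx' (brS_mem hx'))
      (by rw [norm_sub_rev]; exact sub_domZ_norm hx (brS_mem hx))
    have d2' : ‖brS x' - x' - (brS x - x)‖ ≤ ‖brS x - brS x'‖ + ‖x - x'‖ := by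
      rw [show brS x' - x' - (brS x - x) = (x - x') - (brS x - brS x') by abel, add_comm]
      exact norm_sub_le _ _
    rw [e2]
    refine (norm_sub_le _ _).trans ?_
    rw [norm_smul, Real.norm_eq_abs, bigM, abs_of_pos (by norm_num)]
    linarith
  have hy : ‖brT x - brT x'‖
      ≤ ‖brS x - brS x'‖ + ‖brS x - brT x - (brS x' - brT x')‖ := by
    rw [show brT x - brT x' = (brS x - brS x') - (brS x - brT x - (brS x' - brT x')) by abel]
    exact norm_sub_le _ _
  linarith [norm_nonneg (x - x'), norm_nonneg (brS x - brS x')]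

end Vale.Agent.P121
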