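import Mathlib

/-!
# Three-marginal Coulomb transport: definitions
-/

open MeasureTheory
open scoped ENNReal

namespace Vale.Agent.P121

/-- Euclidean three-space. -/
abbrev Pt : Type := EuclideanSpace ℝ (Fin 3)

/-- The Coulomb cost, with value `∞` when two points coincide. -/
noncomputable def coulomb (x₁ x₂ x₃ : Pt) : ℝ≥0∞ :=
  (edist x₁ x₂)⁻¹ + (edist x₁ x₃)⁻¹ + (edist x₂ x₃)⁻¹

/-- The Kantorovich value: the infimum over all couplings of three copies of `μ`. -/
noncomputable def value (μ : Measure Pt) : ℝ≥0∞ :=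
  ⨅ (π : Measure (Pt × Pt × Pt)) (_ : IsProbabilityMeasure π)
    (_ : π.map (fun w => w.1) = μ) (_ : π.map (fun w => w.2.1) = μ)
    (_ : π.map (fun w => w.2.2) = μ),
    ∫⁻ w, coulomb w.1 w.2.1 w.2.2 ∂π

/-- An optimal Monge plan: Borel maps pushing `μ` to itself whose cost is the Kantorovich value. -/
def HasOptimalMongePlan (μ : Measure Pt) : Prop :=
  ∃ T₂ T₃ : Pt → Pt, Measurable T₂ ∧ Measurable T₃ ∧ μ.map T₂ = μ ∧ μ.map T₃ = μ ∧
    ∫⁻ x, coulomb x (T₂ x) (T₃ x) ∂μ = value μ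

end Vale.Agent.P121
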