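import Vale.Agent.P121.Defs

/-!
# Elementary estimates for the Coulomb kernel
-/

open MeasureTheory
open scoped RealInnerProductSpace

namespace Vale.Agent.P121

/-- The Coulomb force `-u/|u|³`. -/
noncomputable def force (u : Pt) : Pt := -((‖u‖ ^ 3)⁻¹ • u)

/-- The inverse of the Coulomb force map. -/
noncomputable def forceInv (v : Pt) : Pt := -((Real.sqrt ‖v‖ ^ 3)⁻¹ • v)

lemma force_neg (u : Pt) : force (-u) = -force u := by simp [force]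

lemma norm_force {u : Pt} (hu : u ≠ 0) : ‖force u‖ = (‖u‖ ^ 2)⁻¹ := by
  have h : 0 < ‖u‖ := norm_pos_iff.2 hu
  rw [force, norm_neg, norm_smul, Real.norm_eq_abs, abs_of_nonneg (by positivity)]
  field_simp

lemma force_forceInv {v : Pt} (hv : v ≠ 0) : force (forceInv v) = v := by
  have h : 0 < ‖v‖ := norm_pos_iff.2 hv
  set a := Real.sqrt ‖v‖ with ha
  have hapos : 0 < a := Real.sqrt_pos.2 h
  have hsq : a ^ 2 = ‖v‖ := Real.sq_sqrt h.le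
  have hn : ‖forceInv v‖ = a⁻¹ := by
    rw [forceInv, norm_neg, norm_smul, Real.norm_eq_abs, abs_of_nonneg (by positivity), ← ha, ← hsq]
    field_simp
  rw [force, hn, forceInv, ← ha, smul_neg, neg_neg, smul_smul]
  have : ((a⁻¹) ^ 3)⁻¹ * (a ^ 3)⁻¹ = 1 := by field_simp
  rw [this, one_smul]

lemma forceInv_force {u : Pt} (hu : u ≠ 0) : forceInv (force u) = u := by
  have h : 0 < ‖u‖ := norm_pos_iff.2 hu
  have hn : Real.sqrt ‖force u‖ = ‖u‖⁻¹ := by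
    rw [norm_force hu, Real.sqrt_eq_iff_eq_sq (by positivity) (by positivity), inv_pow]
  rw [forceInv, hn, force, smul_neg, neg_neg, smul_smul]
  have : ((‖u‖⁻¹) ^ 3)⁻¹ * (‖u‖ ^ 3)⁻¹ = 1 := by field_simp
  rw [this, one_smul]

private lemma scaled_sub_le {a b : ℝ} (ha : 0 < a) {u v : Pt} :
    ‖a⁻¹ • u - b⁻¹ • v‖ ≤ a⁻¹ * ‖u - v‖ + |a⁻¹ - b⁻¹| * ‖v‖ := by
  have h : a⁻¹ • u - b⁻¹ • v = a⁻¹ • (u - v) + (a⁻¹ - b⁻¹) • v := by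
    rw [smul_sub, sub_smul]; abel
  rw [h]
  refine (norm_add_le _ _).trans (le_of_eq ?_)
  rw [norm_smul, norm_smul, Real.norm_eq_abs, Real.norm_eq_abs, abs_of_pos (inv_pos.2 ha)]

lemma force_lipschitz {u v : Pt} (hu : 1 / 2 ≤ ‖u‖) (hv : 1 / 2 ≤ ‖v‖) :
    ‖force u - force v‖ ≤ 32 * ‖u - v‖ := by
  have hd := abs_norm_sub_norm_le u v
  have hr : 0 < ‖u‖ := by linarith
  have hs : 0 < ‖v‖ := by linarith
  have h1 : (‖u‖ ^ 3)⁻¹ ≤ 8 := by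
    rw [inv_le_comm₀ (by positivity) (by norm_num)]
    exact le_trans (by norm_num) (pow_le_pow_left₀ (by norm_num) hu 3)
  have h2 : |(‖u‖ ^ 3)⁻¹ - (‖v‖ ^ 3)⁻¹| * ‖v‖ ≤ 24 * ‖u - v‖ := by
    have e : ((‖u‖ ^ 3)⁻¹ - (‖v‖ ^ 3)⁻¹) * ‖v‖
        = (‖v‖ - ‖u‖) * (‖u‖⁻¹ ^ 3 + ‖u‖⁻¹ ^ 2 * ‖v‖⁻¹ + ‖u‖⁻¹ * ‖v‖⁻¹ ^ 2) := by
      field_simp; ring
    have iu : ‖u‖⁻¹ ≤ 2 := by rw [inv_le_comm₀ hr (by norm_num)]; linarith
    have iv : ‖v‖⁻¹ ≤ 2 := by rw [inv_le_comm₀ hs (by norm_num)]; linarith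
    have hb : ‖u‖⁻¹ ^ 3 + ‖u‖⁻¹ ^ 2 * ‖v‖⁻¹ + ‖u‖⁻¹ * ‖v‖⁻¹ ^ 2
        ≤ 2 ^ 3 + 2 ^ 2 * 2 + 2 * 2 ^ 2 := by gcongr
    rw [← abs_of_pos hs, ← abs_mul, abs_of_pos hs, e, abs_mul, abs_sub_comm, abs_of_nonneg (a := _ + _) (by positivity)]
    calc |‖u‖ - ‖v‖| * _ ≤ ‖u - v‖ * (2 ^ 3 + 2 ^ 2 * 2 + 2 * 2 ^ 2) :=
          mul_le_mul hd hb (by positivity) (norm_nonneg _)
      _ = 24 * ‖u - v‖ := by ring
  calc ‖force u - force v‖ = ‖(‖u‖ ^ 3)⁻¹ • u - (‖v‖ ^ 3)⁻¹ • v‖ := by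
        simp only [force, neg_sub_neg, norm_sub_rev]
    _ ≤ (‖u‖ ^ 3)⁻¹ * ‖u - v‖ + |(‖u‖ ^ 3)⁻¹ - (‖v‖ ^ 3)⁻¹| * ‖v‖ := scaled_sub_le (by positivity)
    _ ≤ 8 * ‖u - v‖ + 24 * ‖u - v‖ := by gcongr
    _ = 32 * ‖u - v‖ := by ring

private lemma forceInv_lipschitz_aux {u v : Pt} (hv : 1 / 5 ≤ ‖v‖) (hle : ‖v‖ ≤ ‖u‖) :
    ‖forceInv u - forceInv v‖ ≤ 30 * ‖u - v‖ := by
  have hd := abs_norm_sub_norm_le u v
  set a := Real.sqrt ‖u‖ with ha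
  set b := Real.sqrt ‖v‖ with hb
  have hb0 : 11 / 25 ≤ b := by
    rw [hb, Real.le_sqrt (by norm_num) (norm_nonneg v)]
    exact le_trans (by norm_num) hv
  have hab : b ≤ a := Real.sqrt_le_sqrt hle
  have hapos : 0 < a := by linarith
  have hbpos : 0 < b := by linarith
  have hb2 : b ^ 2 = ‖v‖ := Real.sq_sqrt (norm_nonneg v)
  have ha2 : a ^ 2 = ‖u‖ := Real.sq_sqrt (norm_nonneg u)
  have ia : a⁻¹ ≤ 25 / 11 := by rw [inv_le_comm₀ hapos (by norm_num)]; linarith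
  have ib : b⁻¹ ≤ 25 / 11 := by rw [inv_le_comm₀ hbpos (by norm_num)]; linarith
  have h1 : (a ^ 3)⁻¹ ≤ (25 / 11) ^ 3 := by rw [← inv_pow]; gcongr
  have h2 : |(a ^ 3)⁻¹ - (b ^ 3)⁻¹| * ‖v‖ ≤ 18 * ‖u - v‖ := by
    have e : |(a ^ 3)⁻¹ - (b ^ 3)⁻¹| * ‖v‖
        = (a - b) * (a⁻¹ * b⁻¹ + a⁻¹ ^ 2 + a⁻¹ ^ 2 * (b / a)) := by
      have hle3 : (a ^ 3)⁻¹ ≤ (b ^ 3)⁻¹ := by gcongr
      rw [abs_of_nonpos (by linarith), ← hb2]; field_simp; ring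
    have q : b / a ≤ 1 := by rw [div_le_one hapos]; exact hab
    have hsum : (a - b) * (a + b) ≤ ‖u - v‖ := by
      have : (a - b) * (a + b) = ‖u‖ - ‖v‖ := by rw [← ha2, ← hb2]; ring
      rw [this]; exact (le_abs_self _).trans hd
    have hdiff : a - b ≤ 25 / 22 * ‖u - v‖ := by
      nlinarith [mul_le_mul_of_nonneg_left (show (22 / 25 : ℝ) ≤ a + b by linarith)
        (show 0 ≤ a - b by linarith)]
    rw [e]
    calc (a - b) * _ ≤ (25 / 22 * ‖u - v‖) *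
          (25 / 11 * (25 / 11) + (25 / 11) ^ 2 + (25 / 11) ^ 2 * 1) := by
            refine mul_le_mul hdiff ?_ (by positivity) (by positivity)
            gcongr
      _ ≤ 18 * ‖u - v‖ := by nlinarith [norm_nonneg (u - v)]
  calc ‖forceInv u - forceInv v‖ = ‖(a ^ 3)⁻¹ • u - (b ^ 3)⁻¹ • v‖ := by
        simp only [forceInv, neg_sub_neg, norm_sub_rev, ha, hb]
    _ ≤ (a ^ 3)⁻¹ * ‖u - v‖ + |(a ^ 3)⁻¹ - (b ^ 3)⁻¹| * ‖v‖ := scaled_sub_le (by positivity)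
    _ ≤ (25 / 11) ^ 3 * ‖u - v‖ + 18 * ‖u - v‖ := by gcongr
    _ ≤ 30 * ‖u - v‖ := by nlinarith [norm_nonneg (u - v)]

lemma forceInv_lipschitz {u v : Pt} (hu : 1 / 5 ≤ ‖u‖) (hv : 1 / 5 ≤ ‖v‖) :
    ‖forceInv u - forceInv v‖ ≤ 30 * ‖u - v‖ := by
  rcases le_total ‖v‖ ‖u‖ with h | h
  · exact forceInv_lipschitz_aux hv h
  · rw [norm_sub_rev, norm_sub_rev u]; exact forceInv_lipschitz_aux hu h

/-- The Newtonian kernel is, up to `24|d|²`, affine. -/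
lemma inv_norm_expansion {u d : Pt} (hu : 1 / 2 ≤ ‖u‖) (hud : 1 / 2 ≤ ‖u + d‖) :
    ‖u‖⁻¹ + ⟪force u, d⟫ - 24 * ‖d‖ ^ 2 ≤ ‖u + d‖⁻¹ := by
  have hs : ‖u + d‖ ^ 2 = ‖u‖ ^ 2 + 2 * ⟪u, d⟫ + ‖d‖ ^ 2 := by
    have := norm_add_sq_real u d; linarith
  have ht := abs_real_inner_le_norm u d
  have hd : |‖u + d‖ - ‖u‖| ≤ ‖d‖ := by
    simpa using abs_norm_sub_norm_le (u + d) u
  have hin : ⟪force u, d⟫ = -((‖u‖ ^ 3)⁻¹ * ⟪u, d⟫) := by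
    rw [force, inner_neg_left, real_inner_smul_left]
  rw [hin]
  set r := ‖u‖ with hr'
  set s := ‖u + d‖ with hs'
  set t := ⟪u, d⟫ with ht'
  set e := ‖d‖ with he'
  have hr : 0 < r := by linarith
  have hspos : 0 < s := by linarith
  have he : 0 ≤ e := norm_nonneg _
  have hrest : s⁻¹ - r⁻¹ + (r ^ 3)⁻¹ * t
      = (t * (s - r) * (s + 2 * r) / (r ^ 3 * s * (r + s))) - e ^ 2 / (r * s * (r + s)) := by
    field_simp
    linear_combination (-(r ^ 2)) * hs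
  have hB : |t * (s - r) * (s + 2 * r)| ≤ r * e * e * (s + 2 * r) := by
    rw [abs_mul, abs_mul, abs_of_pos (show 0 < s + 2 * r by linarith)]
    gcongr
  have h1 : -(e ^ 2 * (s + 2 * r) / (r ^ 2 * s * (r + s)))
      ≤ t * (s - r) * (s + 2 * r) / (r ^ 3 * s * (r + s)) := by
    have : e ^ 2 * (s + 2 * r) / (r ^ 2 * s * (r + s))
        = r * e * e * (s + 2 * r) / (r ^ 3 * s * (r + s)) := by field_simp
    rw [this, ← neg_div]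
    gcongr
    exact (abs_le.1 hB).1
  have h2 : e ^ 2 * (s + 2 * r) / (r ^ 2 * s * (r + s)) + e ^ 2 / (r * s * (r + s))
      ≤ 24 * e ^ 2 := by
    have : e ^ 2 * (s + 2 * r) / (r ^ 2 * s * (r + s)) + e ^ 2 / (r * s * (r + s))
        = e ^ 2 * (r⁻¹ ^ 2 * s⁻¹ * ((s + 3 * r) / (r + s))) := by field_simp; ring
    rw [this, mul_comm (24 : ℝ)]
    gcongr
    have iu : r⁻¹ ≤ 2 := by rw [inv_le_comm₀ hr (by norm_num)]; linarith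
    have iv : s⁻¹ ≤ 2 := by rw [inv_le_comm₀ hspos (by norm_num)]; linarith
    have q : (s + 3 * r) / (r + s) ≤ 3 := by rw [div_le_iff₀ (by linarith)]; linarith
    calc r⁻¹ ^ 2 * s⁻¹ * ((s + 3 * r) / (r + s)) ≤ 2 ^ 2 * 2 * 3 := by gcongr
      _ = 24 := by norm_num
  linarith

end Vale.Agent.P121
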