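import Vale.Agent.P121.Potential

/-!
# The marginal, the optimal plan and the impossibility of a Monge plan
-/

open MeasureTheory Metric
open scoped ENNReal NNReal Classical

namespace Vale.Agent.P121

/-- Normalised Lebesgue measure on the central ball. -/
noncomputable def baseLaw : Measure Pt := (volume domA)⁻¹ • volume.restrict domA

lemma volume_domA_ne_zero : volume domA ≠ 0 :=
  (measure_closedBall_pos volume (0 : Pt) (show (0 : ℝ) < 1 / 10 ^ 11 by norm_num)).ne'

lemma volume_domA_ne_top : volume domA ≠ ⊤ := measure_closedBall_lt_top.ne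

instance : IsProbabilityMeasure baseLaw :=
  ⟨by rw [baseLaw, Measure.smul_apply, Measure.restrict_apply_univ, smul_eq_mul,
    ENNReal.inv_mul_cancel volume_domA_ne_zero volume_domA_ne_top]⟩

lemma baseLaw_ac : baseLaw ≪ volume :=
  (Measure.smul_absolutelyContinuous).trans Measure.restrict_le_self.absolutelyContinuous

lemma ae_mem_domA : ∀ᵐ a ∂baseLaw, a ∈ domA :=
  Measure.ae_smul_measure (ae_restrict_mem measurableSet_domA) _

lemma baseLaw_domA : baseLaw domA = 1 := by
  rw [baseLaw, Measure.smul_apply, Measure.restrict_apply_self, smul_eq_mul,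
    ENNReal.inv_mul_cancel volume_domA_ne_zero volume_domA_ne_top]

lemma baseLaw_map_refl : baseLaw.map refl12 = baseLaw := by
  have hpre : refl12 ⁻¹' domA = domA := by
    ext x; simp [domA]
  have h := (refl12.measurePreserving.restrict_preimage measurableSet_domA).map_eq
  rw [hpre] at h
  rw [baseLaw, Measure.map_smul, h]

lemma null_lipschitz_image {K : ℝ≥0} {f : Pt → Pt} {s : Set Pt} (hf : LipschitzOnWith K f s)
    (hs : volume s = 0) : volume (f '' s) = 0 := by
  set d : ℝ := (Module.finrank ℝ Pt : ℝ) with hd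
  have h1 : (Measure.hausdorffMeasure d : Measure Pt) ≪ volume :=
    Measure.absolutelyContinuous_isAddHaarMeasure _ _
  have h2 : (volume : Measure Pt) ≪ Measure.hausdorffMeasure d :=
    Measure.absolutelyContinuous_isAddHaarMeasure _ _
  refine h2 (le_antisymm ?_ zero_le)
  refine (hf.hausdorffMeasure_image_le (by positivity)).trans ?_
  rw [h1 hs, mul_zero]

open Classical in
/-- Measurable extension of `brT`. -/
noncomputable def wT : Pt → Pt := domA.piecewise brT fun _ => ptP

open Classical in
/-- Measurable extension of `brS`. -/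
noncomputable def wS : Pt → Pt := domA.piecewise brS fun _ => ptP

lemma measurable_wT : Measurable wT :=
  continuousOn_brT.measurable_piecewise continuousOn_const measurableSet_domA

lemma measurable_wS : Measurable wS :=
  continuousOn_brS.measurable_piecewise continuousOn_const measurableSet_domA

lemma measurable_refl : Measurable refl12 := refl12.continuous.measurable

lemma map_ac_of_inverse {f g h : Pt → Pt} {K : ℝ≥0} (hh : Measurable h)
    (he : ∀ a ∈ domA, h a = f a) (hg : LipschitzOnWith K g (f '' domA))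
    (hgf : ∀ a ∈ domA, g (f a) = a) : baseLaw.map h ≪ volume := by
  refine Measure.AbsolutelyContinuous.mk fun N hN h0 => ?_
  rw [Measure.map_apply hh hN]
  have hsub : h ⁻¹' N ∩ domA ⊆ g '' (N ∩ f '' domA) := by
    rintro a ⟨ha, haD⟩
    exact ⟨f a, ⟨he a haD ▸ ha, a, haD, rfl⟩, hgf a haD⟩
  have h1 : volume (g '' (N ∩ f '' domA)) = 0 :=
    null_lipschitz_image (hg.mono Set.inter_subset_right) (measure_inter_null_of_null_left _ h0)
  rw [baseLaw, Measure.smul_apply, Measure.restrict_apply (hh hN)]
  simp [measure_mono_null hsub h1]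

lemma map_wT_ac : baseLaw.map wT ≪ volume :=
  map_ac_of_inverse measurable_wT (fun a ha => by simp [wT, ha]) lipschitzOn_invT
    fun _ ha => invT_brT ha

lemma map_wS_ac : baseLaw.map wS ≪ volume :=
  map_ac_of_inverse measurable_wS (fun a ha => by simp [wS, ha]) lipschitzOn_invS
    fun _ ha => invS_brS ha

lemma map_refl_ac {m : Measure Pt} (h : m ≪ volume) : m.map refl12 ≪ volume := by
  have := h.map measurable_refl
  rwa [refl12.measurePreserving.map_eq] at this

/-- The triple of three functions. -/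
def triple (f g h : Pt → Pt) : Pt → Pt × Pt × Pt := fun a => (f a, g a, h a)

/-- The optimal plan. -/
noncomputable def optPlan : Measure (Pt × Pt × Pt) :=
  (6 : ℝ≥0∞)⁻¹ • (baseLaw.map (triple id wT wS) + baseLaw.map (triple wT wS id)
    + baseLaw.map (triple wS id wT)
    + baseLaw.map (triple refl12 (refl12 ∘ wT) (refl12 ∘ wS))
    + baseLaw.map (triple (refl12 ∘ wT) (refl12 ∘ wS) refl12)
    + baseLaw.map (triple (refl12 ∘ wS) refl12 (refl12 ∘ wT)))

/-- The counterexample marginal. -/
noncomputable def muEx : Measure Pt :=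
  (6 : ℝ≥0∞)⁻¹ • (baseLaw + baseLaw.map wT + baseLaw.map wS + baseLaw
    + baseLaw.map (refl12 ∘ wT) + baseLaw.map (refl12 ∘ wS))

lemma measurable_triple {f g h : Pt → Pt} (hf : Measurable f) (hg : Measurable g) (hh : Measurable h) :
    Measurable (triple f g h) := hf.prodMk (hg.prodMk hh)

lemma mTS : Measurable (triple id wT wS) := measurable_triple measurable_id measurable_wT measurable_wS
lemma mTS₂ : Measurable (triple wT wS id) := measurable_triple measurable_wT measurable_wS measurable_id
lemma mTS₃ : Measurable (triple wS id wT) := measurable_triple measurable_wS measurable_id measurable_wT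
lemma mRT : Measurable (triple refl12 (refl12 ∘ wT) (refl12 ∘ wS)) :=
  measurable_triple measurable_refl (measurable_refl.comp measurable_wT)
    (measurable_refl.comp measurable_wS)
lemma mRT₂ : Measurable (triple (refl12 ∘ wT) (refl12 ∘ wS) refl12) :=
  measurable_triple (measurable_refl.comp measurable_wT) (measurable_refl.comp measurable_wS)
    measurable_refl
lemma mRT₃ : Measurable (triple (refl12 ∘ wS) refl12 (refl12 ∘ wT)) :=
  measurable_triple (measurable_refl.comp measurable_wS) measurable_refl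
    (measurable_refl.comp measurable_wT)

lemma optPlan_map (π : Pt × Pt × Pt → Pt) (hπ : Measurable π) :
    optPlan.map π = (6 : ℝ≥0∞)⁻¹ • (baseLaw.map (π ∘ triple id wT wS)
      + baseLaw.map (π ∘ triple wT wS id) + baseLaw.map (π ∘ triple wS id wT)
      + baseLaw.map (π ∘ triple refl12 (refl12 ∘ wT) (refl12 ∘ wS))
      + baseLaw.map (π ∘ triple (refl12 ∘ wT) (refl12 ∘ wS) refl12)
      + baseLaw.map (π ∘ triple (refl12 ∘ wS) refl12 (refl12 ∘ wT))) := by
  simp only [optPlan, Measure.map_smul, Measure.map_add _ _ hπ, Measure.map_map hπ mTS,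
    Measure.map_map hπ mTS₂, Measure.map_map hπ mTS₃, Measure.map_map hπ mRT,
    Measure.map_map hπ mRT₂, Measure.map_map hπ mRT₃]

lemma optPlan_fst : optPlan.map (fun w => w.1) = muEx := by
  rw [optPlan_map _ measurable_fst, muEx]
  simp only [Function.comp_def, triple, id]
  rw [show (fun x => refl12 x) = ⇑refl12 from rfl, baseLaw_map_refl, Measure.map_id']

lemma optPlan_snd : optPlan.map (fun w => w.2.1) = muEx := by
  rw [optPlan_map (fun w => w.2.1) (measurable_fst.comp measurable_snd), muEx]
  simp only [Function.comp_def, triple, id]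
  rw [show (fun x => refl12 x) = ⇑refl12 from rfl, baseLaw_map_refl, Measure.map_id']
  congr 1
  abel

lemma optPlan_trd : optPlan.map (fun w => w.2.2) = muEx := by
  rw [optPlan_map (fun w => w.2.2) (measurable_snd.comp measurable_snd), muEx]
  simp only [Function.comp_def, triple, id]
  rw [show (fun x => refl12 x) = ⇑refl12 from rfl, baseLaw_map_refl, Measure.map_id']
  congr 1
  abel

lemma six_inv_six : (6 : ℝ≥0∞)⁻¹ * (1 + 1 + 1 + 1 + 1 + 1) = 1 := by
  norm_num
  exact ENNReal.inv_mul_cancel (by norm_num) (by norm_num)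

instance : IsProbabilityMeasure optPlan := by
  constructor
  have h : ∀ F : Pt → Pt × Pt × Pt, Measurable F → baseLaw.map F Set.univ = 1 := fun F hF => by
    rw [Measure.map_apply hF MeasurableSet.univ, Set.preimage_univ, measure_univ]
  simp only [optPlan, Measure.smul_apply, Measure.add_apply, h _ mTS, h _ mTS₂, h _ mTS₃, h _ mRT,
    h _ mRT₂, h _ mRT₃, smul_eq_mul]
  exact six_inv_six

instance : IsProbabilityMeasure muEx := by
  rw [← optPlan_fst]
  exact Measure.isProbabilityMeasure_map measurable_fst.aemeasurable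

theorem muEx_ac : muEx ≪ volume := by
  have h1 : baseLaw.map (refl12 ∘ wT) ≪ volume := by
    rw [← Measure.map_map measurable_refl measurable_wT]; exact map_refl_ac map_wT_ac
  have h2 : baseLaw.map (refl12 ∘ wS) ≪ volume := by
    rw [← Measure.map_map measurable_refl measurable_wS]; exact map_refl_ac map_wS_ac
  exact Measure.smul_absolutelyContinuous.trans
    (((((baseLaw_ac.add_left map_wT_ac).add_left map_wS_ac).add_left baseLaw_ac).add_left h1).add_left h2)

/-- A predicate holding at each piece of the branches holds `muEx`-a.e. -/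
lemma ae_supSet : ∀ᵐ x ∂muEx, x ∈ supSet := by
  have hms : MeasurableSet {x | x ∈ supSet} := measurableSet_supSet
  have h0 : ∀ᵐ x ∂baseLaw, x ∈ supSet :=
    ae_mem_domA.mono fun x hx => Or.inl (Or.inl (Or.inl (Or.inl hx)))
  refine Measure.ae_smul_measure ?_ _
  simp only [ae_add_measure_iff]
  refine ⟨⟨⟨⟨⟨h0, ?_⟩, ?_⟩, h0⟩, ?_⟩, ?_⟩
  · rw [ae_map_iff measurable_wT.aemeasurable hms]
    filter_upwards [ae_mem_domA] with a ha
    exact Or.inl (Or.inl (Or.inl (Or.inr ⟨a, ha, by simp [wT, ha]⟩)))
  · rw [ae_map_iff measurable_wS.aemeasurable hms]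
    filter_upwards [ae_mem_domA] with a ha
    exact Or.inl (Or.inl (Or.inr ⟨a, ha, by simp [wS, ha]⟩))
  · rw [ae_map_iff (measurable_refl.comp measurable_wT).aemeasurable hms]
    filter_upwards [ae_mem_domA] with a ha
    exact Or.inl (Or.inr ⟨a, ha, by simp [wT, ha, refl12_refl12]⟩)
  · rw [ae_map_iff (measurable_refl.comp measurable_wS).aemeasurable hms]
    filter_upwards [ae_mem_domA] with a ha
    exact Or.inr ⟨a, ha, by simp [wS, ha, refl12_refl12]⟩

lemma continuousOn_pot : ContinuousOn pot supSet := by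
  have cA : ContinuousOn potA domA := by unfold potA; fun_prop
  have cC : Continuous potC := by unfold potC; fun_prop
  have ne1 : ∀ a ∈ domA, dist a (brT a) ≠ 0 := fun a ha =>
    dist_ne_zero.2 fun h => disjoint_domA_setT.notMem_of_mem_left ha ⟨a, ha, h.symm⟩
  have ne2 : ∀ a ∈ domA, dist a (brS a) ≠ 0 := fun a ha =>
    dist_ne_zero.2 fun h => disjoint_domA_setS.notMem_of_mem_left ha ⟨a, ha, h.symm⟩
  have ne3 : ∀ a ∈ domA, dist (brT a) (brS a) ≠ 0 := fun a ha =>
    dist_ne_zero.2 fun h => disjoint_setT_setS.notMem_of_mem_left ⟨a, ha, rfl⟩ ⟨a, ha, h.symm⟩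
  have cV : ContinuousOn branchVal domA := by
    have hT := continuousOn_brT
    have hS := continuousOn_brS
    refine ((((continuous_dist.comp_continuousOn (continuousOn_id.prodMk hT)).inv₀ ne1).add
      ((continuous_dist.comp_continuousOn (continuousOn_id.prodMk hS)).inv₀ ne2)).add
      ((continuous_dist.comp_continuousOn (hT.prodMk hS)).inv₀ ne3)).sub cA |>.sub
      (cC.comp_continuousOn hS)
  have pA : ContinuousOn pot domA := cA.congr fun x hx => pot_domA hx
  have pT : ContinuousOn pot setT := by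
    refine (cV.comp lipschitzOn_invT.continuousOn ?_).congr ?_
    · rintro _ ⟨a, ha, rfl⟩; rw [invT_brT ha]; exact ha
    · rintro _ ⟨a, ha, rfl⟩; simp [pot_brT ha, invT_brT ha]
  have pS : ContinuousOn pot setS := cC.continuousOn.congr fun x hx => pot_setS hx
  have pT' : ContinuousOn pot setT' :=
    (pT.comp refl12.continuous.continuousOn (fun x hx => hx)).congr fun x hx => pot_setT' hx
  have pS' : ContinuousOn pot setS' :=
    (pS.comp refl12.continuous.continuousOn (fun x hx => hx)).congr fun x hx => pot_setS' hx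
  have k0 : IsClosed domA := isClosed_closedBall
  have k1 := isCompact_setT.isClosed
  have k2 := isCompact_setS.isClosed
  have k3 : IsClosed setT' := k1.preimage refl12.continuous
  have k4 : IsClosed setS' := k2.preimage refl12.continuous
  exact ((((pA.union_of_isClosed pT k0 k1).union_of_isClosed pS (k0.union k1) k2).union_of_isClosed
    pT' ((k0.union k1).union k2) k3).union_of_isClosed pS' (((k0.union k1).union k2).union k3) k4)

open Classical in
/-- The shifted potential. -/
noncomputable def psi : Pt → ℝ≥0∞ := supSet.piecewise (fun x => ENNReal.ofReal (pot x + 100)) 0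

lemma measurable_psi : Measurable psi :=
  (ENNReal.continuous_ofReal.comp_continuousOn (continuousOn_pot.add continuousOn_const))
    |>.measurable_piecewise continuousOn_const measurableSet_supSet

lemma pot_ge {x : Pt} (hx : x ∈ supSet) : -100 ≤ pot x := by
  have hS : ∀ z ∈ setS, -100 ≤ pot z := by
    intro z hz
    rw [pot_setS hz]
    obtain ⟨a, ha, rfl⟩ := hz
    linarith [(potC_bounds (brS_near ha)).1]
  have hT : ∀ y ∈ setT, -100 ≤ pot y := by
    rintro _ ⟨a, ha, rfl⟩
    have h0 : 0 ≤ costR a (brT a) (brS a) := by unfold costR; positivity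
    have h1 : potA a ≤ 45 / 2 := pot_domA ha ▸ pot_le_domA ha
    have h2 := (potC_bounds (brS_near ha)).2
    rw [pot_brT ha, branchVal]
    linarith
  rcases hx with (((hx | hx) | hx) | hx) | hx
  · have : ‖x‖ ^ 2 ≤ (1 / 10 ^ 11) ^ 2 := pow_le_pow_left₀ (norm_nonneg _) (domA_bound hx) 2
    rw [pot_domA hx, potA, bigM]; linarith
  · exact hT x hx
  · exact hS x hx
  · rw [pot_setT' hx]; exact hT _ hx
  · rw [pot_setS' hx]; exact hS _ hx

lemma psi_le (x : Pt) : psi x ≤ 200 := by
  by_cases hx : x ∈ supSet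
  · simp only [psi, Set.piecewise_eq_of_mem _ _ _ hx]
    refine le_of_le_of_eq (ENNReal.ofReal_le_ofReal (q := 200) ?_) (by simp)
    linarith [pot_le_any hx]
  · simp [psi, hx]

lemma coulomb_eq {x y z : Pt} (hxy : x ≠ y) (hxz : x ≠ z) (hyz : y ≠ z) :
    coulomb x y z = ENNReal.ofReal (costR x y z) := by
  have h : ∀ a b : Pt, a ≠ b → (edist a b)⁻¹ = ENNReal.ofReal (dist a b)⁻¹ := fun a b h => by
    rw [edist_dist, ENNReal.ofReal_inv_of_pos (dist_pos.2 h)]
  rw [coulomb, costR, ENNReal.ofReal_add (by positivity) (by positivity),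
    ENNReal.ofReal_add (by positivity) (by positivity), h x y hxy, h x z hxz, h y z hyz]

lemma psi_sum {x y z : Pt} (hx : x ∈ supSet) (hy : y ∈ supSet) (hz : z ∈ supSet) :
    psi x + psi y + psi z = ENNReal.ofReal (pot x + pot y + pot z + 300) := by
  simp only [psi, Set.piecewise_eq_of_mem _ _ _ hx, Set.piecewise_eq_of_mem _ _ _ hy,
    Set.piecewise_eq_of_mem _ _ _ hz]
  have := pot_ge hx
  have := pot_ge hy
  have := pot_ge hz
  rw [← ENNReal.ofReal_add (by linarith) (by linarith), ← ENNReal.ofReal_add (by linarith) (by linarith)]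
  congr 1
  ring

lemma coulomb_add {x y z : Pt} (hxy : x ≠ y) (hxz : x ≠ z) (hyz : y ≠ z) :
    coulomb x y z + 300 = ENNReal.ofReal (costR x y z + 300) := by
  rw [coulomb_eq hxy hxz hyz, ENNReal.ofReal_add (by unfold costR; positivity) (by norm_num)]
  norm_num

theorem psi_dual {x y z : Pt} (hx : x ∈ supSet) (hy : y ∈ supSet) (hz : z ∈ supSet) :
    psi x + psi y + psi z ≤ coulomb x y z + 300 ∧
      (psi x + psi y + psi z = coulomb x y z + 300 → Tracks x y z) := by
  by_cases h : x ≠ y ∧ x ≠ z ∧ y ≠ z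
  · obtain ⟨hxy, hxz, hyz⟩ := h
    rw [psi_sum hx hy hz, coulomb_add hxy hxz hyz]
    have hc : 0 ≤ costR x y z := by unfold costR; positivity
    rcases good_all hxy hxz hyz hx hy hz with hg | ⟨hg, ht⟩
    · refine ⟨ENNReal.ofReal_le_ofReal (by linarith), fun he => ?_⟩
      exact absurd he ((ENNReal.ofReal_lt_ofReal_iff (by linarith)).2 (by linarith)).ne
    · exact ⟨ENNReal.ofReal_le_ofReal (by linarith), fun _ => ht⟩
  · have htop : coulomb x y z = ⊤ := by
      simp only [not_and_or, not_not] at h
      rcases h with rfl | rfl | rfl <;> simp [coulomb]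
    rw [htop, top_add]
    refine ⟨le_top, fun he => ?_⟩
    rw [psi_sum hx hy hz] at he
    exact absurd he ENNReal.ofReal_ne_top

lemma branch_exact {a : Pt} (ha : a ∈ domA) :
    coulomb a (brT a) (brS a) + 300 = psi a + psi (brT a) + psi (brS a) := by
  have hT : brT a ∈ setT := ⟨a, ha, rfl⟩
  have hS : brS a ∈ setS := ⟨a, ha, rfl⟩
  rw [psi_sum (Or.inl (Or.inl (Or.inl (Or.inl ha)))) (Or.inl (Or.inl (Or.inl (Or.inr hT))))
      (Or.inl (Or.inl (Or.inr hS))),
    coulomb_add (ne_of_mem_of_not_mem ha (disjoint_domA_setT.notMem_of_mem_right hT))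
      (ne_of_mem_of_not_mem ha (disjoint_domA_setS.notMem_of_mem_right hS))
      (ne_of_mem_of_not_mem hT (disjoint_setT_setS.notMem_of_mem_right hS)),
    pot_domA ha, pot_brT ha, pot_setS hS, branchVal]
  congr 1
  ring

lemma psi_refl {x : Pt} (hx : x ∈ domA ∪ setT ∪ setS) : psi (refl12 x) = psi x := by
  have h1 : x ∈ supSet := Or.inl (Or.inl hx)
  rcases hx with (hx | hx) | hx
  · have h2 : refl12 x ∈ supSet := Or.inl (Or.inl (Or.inl (Or.inl (refl12_mem_domA hx))))
    simp [psi, h1, h2, pot_refl_domA hx]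
  · have h : refl12 x ∈ setT' := by simpa [setT', refl12_refl12] using hx
    have h2 : refl12 x ∈ supSet := Or.inl (Or.inr h)
    simp [psi, h1, h2, pot_setT' h, refl12_refl12]
  · have h : refl12 x ∈ setS' := by simpa [setS', refl12_refl12] using hx
    have h2 : refl12 x ∈ supSet := Or.inr h
    simp [psi, h1, h2, pot_setS' h, refl12_refl12]

lemma coulomb_swap12 (x y z : Pt) : coulomb y x z = coulomb x y z := by
  simp only [coulomb, edist_comm y x]; ring

lemma coulomb_cycle (x y z : Pt) : coulomb y z x = coulomb x y z := by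
  simp only [coulomb, edist_comm y x, edist_comm z x]; ring

lemma measurable_coulomb : Measurable fun w : Pt × Pt × Pt => coulomb w.1 w.2.1 w.2.2 := by
  unfold coulomb; fun_prop

lemma ae_exact : ∀ᵐ w ∂optPlan,
    coulomb w.1 w.2.1 w.2.2 + 300 = psi w.1 + psi w.2.1 + psi w.2.2 := by
  have hms : MeasurableSet {w : Pt × Pt × Pt |
      coulomb w.1 w.2.1 w.2.2 + 300 = psi w.1 + psi w.2.1 + psi w.2.2} :=
    measurableSet_eq_fun (measurable_coulomb.add_const _)
      (((measurable_psi.comp measurable_fst).add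
        (measurable_psi.comp (measurable_fst.comp measurable_snd))).add
        (measurable_psi.comp (measurable_snd.comp measurable_snd)))
  refine Measure.ae_smul_measure ?_ _
  simp only [ae_add_measure_iff]
  rw [ae_map_iff mTS.aemeasurable hms, ae_map_iff mTS₂.aemeasurable hms,
    ae_map_iff mTS₃.aemeasurable hms, ae_map_iff mRT.aemeasurable hms,
    ae_map_iff mRT₂.aemeasurable hms, ae_map_iff mRT₃.aemeasurable hms]
  have key : ∀ a ∈ domA, coulomb (refl12 a) (refl12 (brT a)) (refl12 (brS a)) + 300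
      = psi (refl12 a) + psi (refl12 (brT a)) + psi (refl12 (brS a)) := fun a ha => by
    rw [psi_refl (Or.inl (Or.inl ha)), psi_refl (Or.inl (Or.inr ⟨a, ha, rfl⟩)),
      psi_refl (Or.inr ⟨a, ha, rfl⟩), ← branch_exact ha]
    simp [coulomb, refl12.isometry.edist_eq]
  refine ⟨⟨⟨⟨⟨?_, ?_⟩, ?_⟩, ?_⟩, ?_⟩, ?_⟩ <;> filter_upwards [ae_mem_domA] with a ha <;>
    simp only [triple, Function.comp_apply, id, wT, wS, Set.piecewise_eq_of_mem _ _ _ ha]
  · exact branch_exact ha
  · rw [coulomb_cycle, branch_exact ha]; ring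
  · rw [← coulomb_cycle, branch_exact ha]; ring
  · exact key a ha
  · rw [coulomb_cycle, key a ha]; ring
  · rw [← coulomb_cycle, key a ha]; ring

lemma lintegral_three {m : Measure (Pt × Pt × Pt)} (h1 : m.map (fun w => w.1) = muEx)
    (h2 : m.map (fun w => w.2.1) = muEx) (h3 : m.map (fun w => w.2.2) = muEx) :
    ∫⁻ w, psi w.1 + psi w.2.1 + psi w.2.2 ∂m = 3 * ∫⁻ x, psi x ∂muEx := by
  have m1 : Measurable fun w : Pt × Pt × Pt => psi w.1 := measurable_psi.comp measurable_fst
  have m2 : Measurable fun w : Pt × Pt × Pt => psi w.2.1 :=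
    measurable_psi.comp (measurable_fst.comp measurable_snd)
  have m3 : Measurable fun w : Pt × Pt × Pt => psi w.2.2 :=
    measurable_psi.comp (measurable_snd.comp measurable_snd)
  have e1 : ∫⁻ w, psi w.1 ∂m = ∫⁻ x, psi x ∂muEx := by
    conv_rhs => rw [← h1, lintegral_map measurable_psi measurable_fst]
  have e2 : ∫⁻ w, psi w.2.1 ∂m = ∫⁻ x, psi x ∂muEx := by
    conv_rhs => rw [← h2]
    exact (lintegral_map measurable_psi (measurable_fst.comp measurable_snd)).symm
  have e3 : ∫⁻ w, psi w.2.2 ∂m = ∫⁻ x, psi x ∂muEx := by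
    conv_rhs => rw [← h3]
    exact (lintegral_map measurable_psi (measurable_snd.comp measurable_snd)).symm
  rw [lintegral_add_right _ m3, lintegral_add_right _ m2, e1, e2, e3]
  ring

lemma three_psi_ne_top : 3 * ∫⁻ x, psi x ∂muEx ≠ ⊤ := by
  refine ENNReal.mul_ne_top (by simp) (ne_top_of_le_ne_top (b := 200) (by simp) ?_)
  exact (lintegral_mono psi_le).trans (by simp)

lemma value_add_le : value muEx + 300 ≤ 3 * ∫⁻ x, psi x ∂muEx := by
  have h : value muEx ≤ ∫⁻ w, coulomb w.1 w.2.1 w.2.2 ∂optPlan :=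
    iInf_le_of_le optPlan (iInf_le_of_le inferInstance (iInf_le_of_le optPlan_fst
      (iInf_le_of_le optPlan_snd (iInf_le_of_le optPlan_trd le_rfl))))
  refine (add_le_add h le_rfl).trans ?_
  rw [← lintegral_three optPlan_fst optPlan_snd optPlan_trd, ← lintegral_congr_ae ae_exact,
    lintegral_add_right _ measurable_const, lintegral_const, measure_univ, mul_one]

theorem value_ne_top : value muEx ≠ ⊤ :=
  ne_top_of_le_ne_top three_psi_ne_top (le_trans le_self_add value_add_le)

/-- Any optimal Monge plan lives on the two branches. -/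
theorem monge_tracks {T₂ T₃ : Pt → Pt} (m2 : Measurable T₂) (m3 : Measurable T₃)
    (h2 : muEx.map T₂ = muEx) (h3 : muEx.map T₃ = muEx)
    (hopt : ∫⁻ x, coulomb x (T₂ x) (T₃ x) ∂muEx = value muEx) :
    ∀ᵐ x ∂muEx, Tracks x (T₂ x) (T₃ x) := by
  have s2 : ∀ᵐ x ∂muEx, T₂ x ∈ supSet :=
    (ae_map_iff m2.aemeasurable measurableSet_supSet).1 (by rw [h2]; exact ae_supSet)
  have s3 : ∀ᵐ x ∂muEx, T₃ x ∈ supSet :=
    (ae_map_iff m3.aemeasurable measurableSet_supSet).1 (by rw [h3]; exact ae_supSet)
  have q2 : Measurable fun x => psi (T₂ x) := measurable_psi.comp m2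
  have q3 : Measurable fun x => psi (T₃ x) := measurable_psi.comp m3
  have hint : ∫⁻ x, psi x + psi (T₂ x) + psi (T₃ x) ∂muEx = 3 * ∫⁻ x, psi x ∂muEx := by
    rw [lintegral_add_right _ q3, lintegral_add_right _ q2, ← lintegral_map measurable_psi m2,
      ← lintegral_map measurable_psi m3, h2, h3]
    ring
  have hle : (fun x => psi x + psi (T₂ x) + psi (T₃ x)) ≤ᵐ[muEx]
      fun x => coulomb x (T₂ x) (T₃ x) + 300 := by
    filter_upwards [ae_supSet, s2, s3] with x a b c using (psi_dual a b c).1
  have hm : Measurable fun x => coulomb x (T₂ x) (T₃ x) + 300 :=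
    (measurable_coulomb.comp (measurable_id.prodMk (m2.prodMk m3))).add_const _
  have heq := ae_eq_of_ae_le_of_lintegral_le hle (hint ▸ three_psi_ne_top) hm.aemeasurable (by
    rw [lintegral_add_right _ measurable_const, lintegral_const, measure_univ, mul_one, hopt, hint]
    exact value_add_le)
  filter_upwards [heq, ae_supSet, s2, s3] with x he a b c using (psi_dual a b c).2 he

lemma muEx_image {f : Pt → Pt} {E : Set Pt} (hf : Set.InjOn f domA) (hc : ContinuousOn f domA)
    (hE : MeasurableSet E) (hED : E ⊆ domA) : MeasurableSet (f '' E) :=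
  hE.image_of_continuousOn_injOn (hc.mono hED) (hf.mono hED)

lemma baseLaw_preimage_eq {h : Pt → Pt} {A B : Set Pt}
    (hAB : ∀ a ∈ domA, (h a ∈ A ↔ a ∈ B)) : baseLaw (h ⁻¹' A) = baseLaw B := by
  refine measure_congr (ae_mem_domA.mono fun a ha => propext ?_)
  exact hAB a ha

lemma muEx_apply {A : Set Pt} (hA : MeasurableSet A) :
    muEx A = (6 : ℝ≥0∞)⁻¹ * (baseLaw A + baseLaw (wT ⁻¹' A) + baseLaw (wS ⁻¹' A) + baseLaw A
      + baseLaw ((refl12 ∘ wT) ⁻¹' A) + baseLaw ((refl12 ∘ wS) ⁻¹' A)) := by
  simp only [muEx, Measure.smul_apply, Measure.add_apply, smul_eq_mul,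
    Measure.map_apply measurable_wT hA, Measure.map_apply measurable_wS hA,
    Measure.map_apply (measurable_refl.comp measurable_wT) hA,
    Measure.map_apply (measurable_refl.comp measurable_wS) hA]

lemma baseLaw_preimage_empty {h : Pt → Pt} {A : Set Pt} (hA : ∀ a ∈ domA, h a ∉ A) :
    baseLaw (h ⁻¹' A) = 0 := by
  rw [baseLaw_preimage_eq (B := ∅) fun a ha => by simpa using hA a ha, measure_empty]

lemma baseLaw_outside {A : Set Pt} (hA : Disjoint domA A) : baseLaw A = 0 :=
  baseLaw_preimage_empty (h := id) fun _ ha => hA.notMem_of_mem_left ha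

lemma wT_mem {a : Pt} (ha : a ∈ domA) : wT a ∈ setT := ⟨a, ha, by simp [wT, ha]⟩

lemma wS_mem {a : Pt} (ha : a ∈ domA) : wS a ∈ setS := ⟨a, ha, by simp [wS, ha]⟩

lemma refl_wT_mem {a : Pt} (ha : a ∈ domA) : refl12 (wT a) ∈ setT' := by
  simpa [setT', refl12_refl12] using wT_mem ha

lemma refl_wS_mem {a : Pt} (ha : a ∈ domA) : refl12 (wS a) ∈ setS' := by
  simpa [setS', refl12_refl12] using wS_mem ha

lemma muEx_dom {E : Set Pt} (hE : MeasurableSet E) (hED : E ⊆ domA) :
    muEx E = (6 : ℝ≥0∞)⁻¹ * (baseLaw E + baseLaw E) := by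
  rw [muEx_apply hE,
    baseLaw_preimage_empty fun a ha h => disjoint_domA_setT.notMem_of_mem_right (wT_mem ha) (hED h),
    baseLaw_preimage_empty fun a ha h => disjoint_domA_setS.notMem_of_mem_right (wS_mem ha) (hED h),
    baseLaw_preimage_empty (h := refl12 ∘ wT) fun a ha h =>
      disjoint_domA_setT'.notMem_of_mem_right (refl_wT_mem ha) (hED h),
    baseLaw_preimage_empty (h := refl12 ∘ wS) fun a ha h =>
      disjoint_domA_setS'.notMem_of_mem_right (refl_wS_mem ha) (hED h)]
  simp

lemma muEx_imT {E : Set Pt} (hE : MeasurableSet E) (hED : E ⊆ domA) :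
    muEx (brT '' E) = (6 : ℝ≥0∞)⁻¹ * baseLaw E := by
  have hsub : brT '' E ⊆ setT := Set.image_mono hED
  rw [muEx_apply (muEx_image brT_injOn continuousOn_brT hE hED),
    baseLaw_outside (disjoint_domA_setT.mono_right hsub),
    baseLaw_preimage_eq (B := E) fun a ha => by
      simpa [wT, ha] using brT_injOn.mem_image_iff hED ha,
    baseLaw_preimage_empty fun a ha h => disjoint_setT_setS.notMem_of_mem_right (wS_mem ha) (hsub h),
    baseLaw_preimage_empty (h := refl12 ∘ wT) fun a ha h =>
      disjoint_setT_setT'.notMem_of_mem_right (refl_wT_mem ha) (hsub h),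
    baseLaw_preimage_empty (h := refl12 ∘ wS) fun a ha h =>
      disjoint_setT_setS'.notMem_of_mem_right (refl_wS_mem ha) (hsub h)]
  simp

lemma muEx_imS {E : Set Pt} (hE : MeasurableSet E) (hED : E ⊆ domA) :
    muEx (brS '' E) = (6 : ℝ≥0∞)⁻¹ * baseLaw E := by
  have hsub : brS '' E ⊆ setS := Set.image_mono hED
  rw [muEx_apply (muEx_image brS_injOn continuousOn_brS hE hED),
    baseLaw_outside (disjoint_domA_setS.mono_right hsub),
    baseLaw_preimage_empty fun a ha h => disjoint_setT_setS.notMem_of_mem_left (wT_mem ha) (hsub h),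
    baseLaw_preimage_eq (B := E) fun a ha => by
      simpa [wS, ha] using brS_injOn.mem_image_iff hED ha,
    baseLaw_preimage_empty (h := refl12 ∘ wT) fun a ha h =>
      disjoint_setS_setT'.notMem_of_mem_right (refl_wT_mem ha) (hsub h),
    baseLaw_preimage_empty (h := refl12 ∘ wS) fun a ha h =>
      disjoint_setS_setS'.notMem_of_mem_right (refl_wS_mem ha) (hsub h)]
  simp

lemma count_identity {x y z : Pt} {E : Set Pt} (hE : E ⊆ domA) (ht : Tracks x y z) :
    cnt (brT '' E) x y z = (brT '' E).indicator 1 x + (brS '' E).indicator 1 x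
      + (E ∩ {w | w = x ∧ (y ∈ setT ∨ z ∈ setT)}).indicator 1 x := by
  obtain ⟨hD, hT, hEs⟩ := ht
  obtain ⟨hS, hmul⟩ := hEs E hE
  have hcE : cnt E x y z ≤ 1 := by
    rw [← hD]
    exact add_le_add (add_le_add
      (Set.indicator_le_indicator_of_subset hE (fun _ => zero_le) x)
      (Set.indicator_le_indicator_of_subset hE (fun _ => zero_le) y))
      (Set.indicator_le_indicator_of_subset hE (fun _ => zero_le) z)
  have hN : cnt (brT '' E) x y z ≤ 1 := hmul ▸ mul_le_one' hcE hT
  have dTS : Disjoint (brT '' E) (brS '' E) :=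
    disjoint_setT_setS.mono (Set.image_mono hE) (Set.image_mono hE)
  have dET : Disjoint E (brT '' E) := disjoint_domA_setT.mono hE (Set.image_mono hE)
  have dES : Disjoint E (brS '' E) := disjoint_domA_setS.mono hE (Set.image_mono hE)
  have one_le : ∀ A : Set Pt, x ∈ A → (1 : ℝ≥0∞) ≤ cnt A x y z := fun A h => by
    simp only [cnt, Set.indicator_of_mem h, Pi.one_apply]
    exact le_add_right (le_add_right le_rfl)
  by_cases h1 : x ∈ brT '' E
  · simp [h1, dTS.notMem_of_mem_left h1, dET.notMem_of_mem_right h1,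
      le_antisymm hN (one_le _ h1)]
  by_cases h2 : x ∈ brS '' E
  · have := le_antisymm hN (hS ▸ one_le _ h2)
    simp [h1, h2, dES.notMem_of_mem_right h2, this]
  by_cases h3 : x ∈ E
  · have hc : cnt E x y z = 1 := le_antisymm hcE (one_le _ h3)
    have hx : x ∉ setT := disjoint_domA_setT.notMem_of_mem_left (hE h3)
    rw [hc, one_mul] at hmul
    rw [hmul]
    by_cases hy : y ∈ setT <;> by_cases hz : z ∈ setT
    · exfalso; revert hT; simp [cnt, hx, hy, hz]; norm_num
    all_goals simp [cnt, h1, h2, h3, hx, hy, hz]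
  · have hy : y ∉ brT '' E ∧ z ∉ brT '' E := by
      by_contra hcon
      rw [not_and_or, not_not, not_not] at hcon
      have hne : cnt (brT '' E) x y z ≠ 0 := by
        simp only [cnt]
        rcases hcon with h | h <;> simp [h]
      have hneS : cnt (brS '' E) x y z ≠ 0 := hS ▸ hne
      have hneE : cnt E x y z ≠ 0 := fun h => hne (by rw [hmul, h, zero_mul])
      simp only [cnt, ne_eq, add_eq_zero, Set.indicator_apply_eq_zero, Pi.one_apply, one_ne_zero,
        imp_false, h2, h3, not_false_eq_true, true_and, not_and_or, not_not] at hneS hneE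
      rcases hcon with h | h <;> rcases hneS with hs | hs <;> rcases hneE with he | he <;>
        first
          | exact dTS.notMem_of_mem_left h hs
          | exact dET.notMem_of_mem_left he h
          | exact dES.notMem_of_mem_left he hs
    simp [cnt, h1, h2, h3, hy.1, hy.2]

theorem no_monge : ¬ HasOptimalMongePlan muEx := by
  rintro ⟨T₂, T₃, m2, m3, h2, h3, hopt⟩
  have hae := monge_tracks m2 m3 h2 h3 hopt
  set B : Set Pt := T₂ ⁻¹' setT ∪ T₃ ⁻¹' setT with hB
  have mB : MeasurableSet B :=
    (m2 isCompact_setT.measurableSet).union (m3 isCompact_setT.measurableSet)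
  have main : ∀ E, MeasurableSet E → E ⊆ domA →
      3 * ((6 : ℝ≥0∞)⁻¹ * baseLaw E)
        = (6 : ℝ≥0∞)⁻¹ * baseLaw E + (6 : ℝ≥0∞)⁻¹ * baseLaw E + muEx (E ∩ B) := by
    intro E hE hED
    have mT := muEx_image brT_injOn continuousOn_brT hE hED
    have mS := muEx_image brS_injOn continuousOn_brS hE hED
    have i1 : Measurable ((brT '' E).indicator (1 : Pt → ℝ≥0∞)) := measurable_one.indicator mT
    have i2 : Measurable ((brS '' E).indicator (1 : Pt → ℝ≥0∞)) := measurable_one.indicator mS
    have i3 : Measurable ((E ∩ B).indicator (1 : Pt → ℝ≥0∞)) :=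
      measurable_one.indicator (hE.inter mB)
    have lhs : ∫⁻ x, cnt (brT '' E) x (T₂ x) (T₃ x) ∂muEx = 3 * muEx (brT '' E) := by
      have j2 : Measurable fun x => (brT '' E).indicator (1 : Pt → ℝ≥0∞) (T₂ x) := i1.comp m2
      have j3 : Measurable fun x => (brT '' E).indicator (1 : Pt → ℝ≥0∞) (T₃ x) := i1.comp m3
      simp only [cnt]
      rw [lintegral_add_right _ j3, lintegral_add_right _ j2, ← lintegral_map i1 m2,
        ← lintegral_map i1 m3, h2, h3, lintegral_indicator_one mT]
      ring
    have rhs : ∫⁻ x, cnt (brT '' E) x (T₂ x) (T₃ x) ∂muEx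
        = muEx (brT '' E) + muEx (brS '' E) + muEx (E ∩ B) := by
      rw [← lintegral_indicator_one mT, ← lintegral_indicator_one mS,
        ← lintegral_indicator_one (hE.inter mB), ← lintegral_add_right _ i2,
        ← lintegral_add_right _ i3]
      refine lintegral_congr_ae (hae.mono fun x hx => ?_)
      simp only [count_identity hED hx]
      congr 1
      by_cases h : x ∈ E ∩ B
      · rw [Set.indicator_of_mem h, Set.indicator_of_mem]
        exact ⟨h.1, rfl, h.2⟩
      · rw [Set.indicator_of_notMem h, Set.indicator_of_notMem fun h' => h ⟨h'.1, h'.2.2⟩]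
    rw [lhs, muEx_imT hE hED, muEx_imS hE hED] at rhs
    exact rhs
  have fin : ∀ E, (6 : ℝ≥0∞)⁻¹ * baseLaw E ≠ ⊤ := fun E =>
    ENNReal.mul_ne_top (by simp) (measure_ne_top _ _)
  have cancel : ∀ E, MeasurableSet E → E ⊆ domA →
      muEx (E ∩ B) = (6 : ℝ≥0∞)⁻¹ * baseLaw E := by
    intro E hE hED
    have h := main E hE hED
    rw [show (3 : ℝ≥0∞) = 1 + 1 + 1 by norm_num, add_mul, add_mul, one_mul] at h
    exact ((ENNReal.add_right_inj (ENNReal.add_ne_top.2 ⟨fin E, fin E⟩)).1 h).symm
  have e0 : baseLaw (domA \ B) = 0 := by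
    have h := cancel (domA \ B) (measurableSet_domA.diff mB) Set.sdiff_subset
    rw [Set.sdiff_inter_self, measure_empty] at h
    simpa using h.symm
  have e1 : baseLaw (domA ∩ B) = 0 := by
    have h := cancel (domA ∩ B) (measurableSet_domA.inter mB) Set.inter_subset_left
    rw [Set.inter_assoc, Set.inter_self, muEx_dom (measurableSet_domA.inter mB) Set.inter_subset_left,
      mul_add] at h
    have := ENNReal.eq_sub_of_add_eq (fin _) h
    rw [tsub_self] at this
    simpa using this
  have := measure_inter_add_sdiff (μ := baseLaw) domA mB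
  rw [e0, e1, baseLaw_domA, add_zero] at this
  exact zero_ne_one this

end Vale.Agent.P121
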