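import Vale.Agent.P121.Branch

/-!
# The dual potential and the equality set
-/

open MeasureTheory Metric
open scoped RealInnerProductSpace ENNReal NNReal

namespace Vale.Agent.P121

/-- The real Coulomb cost at distinct points. -/
noncomputable def costR (x y z : Pt) : ℝ := (dist x y)⁻¹ + (dist x z)⁻¹ + (dist y z)⁻¹

/-- Potential near `0`. -/
noncomputable def potA (x : Pt) : ℝ := 45 / 2 - bigM / 2 * ‖x‖ ^ 2

/-- Potential near `-p`. -/
noncomputable def potC (z : Pt) : ℝ := -10 + ⟪lam, z + ptP⟫ - bigM / 2 * ‖z + ptP‖ ^ 2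

/-- The dual value on the branch over `x`. -/
noncomputable def branchVal (x : Pt) : ℝ :=
  costR x (brT x) (brS x) - potA x - potC (brS x)

lemma branch_min {a x' z' : Pt} (ha : a ∈ domA) (hx : ‖x'‖ ≤ 1 / 100)
    (hz : ‖z' + ptP‖ ≤ 1 / 100) :
    branchVal a + 49000 * (‖x' - a‖ ^ 2 + ‖z' - brS a‖ ^ 2)
      ≤ costR x' (brT a) z' - potA x' - potC z' := by
  have h1 := domA_bound ha
  have h2 := brS_near ha
  have h3 := brT_near ha
  set y := brT a with hy
  set b := brS a with hb
  set d := x' - a with hd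
  set e := z' - b with he
  have g1 : ∀ u : Pt, ‖u‖ ≤ 1 / 100 → 1 / 2 ≤ ‖u - y‖ := fun u hu => by
    refine near_add_norm (b := -ptP) (e := 1 / 10) ?_ (by rw [norm_neg, norm_ptP]; norm_num)
    rw [show u - y - -ptP = u - (y - ptP) by abel]
    linarith [norm_sub_le u (y - ptP)]
  have g2 : ∀ u w : Pt, ‖u‖ ≤ 1 / 100 → ‖w + ptP‖ ≤ 1 / 100 → 1 / 2 ≤ ‖u - w‖ := fun u w hu hw => by
    refine near_add_norm (b := ptP) (e := 1 / 10) ?_ (by rw [norm_ptP]; norm_num)
    rw [show u - w - ptP = u - (w + ptP) by abel]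
    linarith [norm_sub_le u (w + ptP)]
  have A := inv_norm_expansion (u := a - y) (d := d) (g1 a (by linarith))
    (by rw [show a - y + d = x' - y by rw [hd]; abel]; exact g1 x' hx)
  have B := inv_norm_expansion (u := a - b) (d := d - e) (g2 a b (by linarith) (by linarith))
    (by rw [show a - b + (d - e) = x' - z' by rw [hd, he]; abel]; exact g2 x' z' hx hz)
  have C := inv_norm_expansion (u := b - y) (d := e)
    (z_sub_y_norm (by linarith) (by linarith))
    (by rw [show b - y + e = z' - y by rw [he]; abel]; exact z_sub_y_norm (by linarith) (by linarith))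
  have sx : bigM * ⟪a, d⟫ + ⟪force (a - y), d⟫ + ⟪force (a - b), d⟫ = 0 := by
    have := congrArg (fun v => ⟪v, d⟫) (stationary_x ha)
    simpa only [inner_add_left, real_inner_smul_left, inner_zero_left] using this
  have sz : bigM * ⟪b + ptP, e⟫ + ⟪force (b - a), e⟫ + ⟪force (b - y), e⟫ = ⟪lam, e⟫ := by
    have := congrArg (fun v => ⟪v, e⟫) (stationary_z ha)
    simpa only [inner_add_left, real_inner_smul_left] using this
  have hneg : ⟪force (b - a), e⟫ = -⟪force (a - b), e⟫ := by
    rw [← neg_sub a b, force_neg, inner_neg_left]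
  have hde : ‖d - e‖ ^ 2 ≤ 2 * ‖d‖ ^ 2 + 2 * ‖e‖ ^ 2 := by
    have := norm_sub_le d e
    nlinarith [norm_nonneg (d - e), norm_nonneg d, norm_nonneg e, sq_nonneg (‖d‖ - ‖e‖)]
  have hA : potA x' = potA a - bigM * ⟪a, d⟫ - bigM / 2 * ‖d‖ ^ 2 := by
    have := norm_add_sq_real a d
    rw [show a + d = x' by rw [hd]; abel] at this
    simp only [potA]; rw [this]; ring
  have hC : potC z' = potC b + ⟪lam, e⟫ - bigM * ⟪b + ptP, e⟫ - bigM / 2 * ‖e‖ ^ 2 := by
    have := norm_add_sq_real (b + ptP) e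
    rw [show b + ptP + e = z' + ptP by rw [he]; abel] at this
    simp only [potC]
    rw [this, show z' + ptP = (b + ptP) + e by rw [he]; abel, inner_add_right]; ring
  rw [inner_sub_right] at B
  rw [show a - y + d = x' - y by rw [hd]; abel] at A
  rw [show a - b + (d - e) = x' - z' by rw [hd, he]; abel] at B
  rw [show b - y + e = z' - y by rw [he]; abel] at C
  rw [hA, hC, branchVal, ← hy, ← hb, costR, costR, dist_comm y z', dist_comm y b]
  simp only [dist_eq_norm, bigM] at *
  linarith [sq_nonneg ‖d‖, sq_nonneg ‖e‖]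

lemma brT_injOn : Set.InjOn brT domA := fun x hx y hy h => by
  have := brT_inverse_lip hx hy
  rw [h, sub_self, norm_zero] at this
  exact sub_eq_zero.1 (norm_le_zero_iff.1 this)

lemma brS_injOn : Set.InjOn brS domA := fun x hx y hy h => by
  have := brS_inverse_lip hx hy
  rw [h, sub_self, norm_zero, mul_zero] at this
  exact sub_eq_zero.1 (norm_le_zero_iff.1 this)

lemma continuousOn_brS : ContinuousOn brS domA :=
  (LipschitzOnWith.of_dist_le_mul (K := 1922) fun x hx y hy => by
    simpa [dist_eq_norm] using brS_lip hx hy).continuousOn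

lemma continuousOn_brT : ContinuousOn brT domA :=
  (LipschitzOnWith.of_dist_le_mul (K := 5000000) fun x hx y hy => by
    simpa [dist_eq_norm] using brT_lip hx hy).continuousOn

/-- Inverse of `brT` on its image. -/
noncomputable def invT : Pt → Pt := Function.invFunOn brT domA

/-- Inverse of `brS` on its image. -/
noncomputable def invS : Pt → Pt := Function.invFunOn brS domA

lemma invT_brT {a : Pt} (ha : a ∈ domA) : invT (brT a) = a :=
  brT_injOn.leftInvOn_invFunOn ha

lemma invS_brS {a : Pt} (ha : a ∈ domA) : invS (brS a) = a :=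
  brS_injOn.leftInvOn_invFunOn ha

lemma lipschitzOn_invT : LipschitzOnWith 1 invT (brT '' domA) := by
  refine LipschitzOnWith.of_dist_le_mul ?_
  rintro _ ⟨x, hx, rfl⟩ _ ⟨y, hy, rfl⟩
  rw [invT_brT hx, invT_brT hy, dist_eq_norm, dist_eq_norm]
  simpa using brT_inverse_lip hx hy

lemma lipschitzOn_invS : LipschitzOnWith 1400 invS (brS '' domA) := by
  refine LipschitzOnWith.of_dist_le_mul ?_
  rintro _ ⟨x, hx, rfl⟩ _ ⟨y, hy, rfl⟩
  rw [invS_brS hx, invS_brS hy, dist_eq_norm, dist_eq_norm]
  simpa using brS_inverse_lip hx hy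

/-- The swap of the first two coordinates. -/
noncomputable def refl12 : Pt ≃ₗᵢ[ℝ] Pt :=
  LinearIsometryEquiv.piLpCongrLeft 2 ℝ ℝ (Equiv.swap (0 : Fin 3) 1)

lemma refl12_apply (x : Pt) (i : Fin 3) : refl12 x i = x (Equiv.swap (0 : Fin 3) 1 i) := by
  simp [refl12, LinearIsometryEquiv.piLpCongrLeft_apply, Equiv.piCongrLeft'_apply]

lemma refl12_refl12 (x : Pt) : refl12 (refl12 x) = x := by
  ext i; simp [refl12_apply]

/-- Second unit vector. -/
noncomputable def ptQ : Pt := refl12 ptP

lemma norm_ptQ : ‖ptQ‖ = 1 := by rw [ptQ, LinearIsometryEquiv.norm_map, norm_ptP]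

lemma inner_ptP_ptQ : ⟪ptP, ptQ⟫ = 0 := by
  simp [ptP, ptQ, PiLp.inner_apply, refl12_apply, Equiv.swap_apply_def]

lemma norm_add_ptPQ : ‖ptP + ptQ‖ = Real.sqrt 2 := by
  rw [← Real.sqrt_sq (norm_nonneg (ptP + ptQ)), norm_add_sq_real, inner_ptP_ptQ, norm_ptP, norm_ptQ]
  norm_num

lemma norm_sub_ptPQ : ‖ptP - ptQ‖ = Real.sqrt 2 := by
  rw [← Real.sqrt_sq (norm_nonneg (ptP - ptQ)), norm_sub_sq_real, inner_ptP_ptQ, norm_ptP, norm_ptQ]
  norm_num

/-- The five pieces of the support. -/
noncomputable def setT : Set Pt := brT '' domA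
/-- See `setT`. -/
noncomputable def setS : Set Pt := brS '' domA
/-- See `setT`. -/
noncomputable def setT' : Set Pt := refl12 ⁻¹' setT
/-- See `setT`. -/
noncomputable def setS' : Set Pt := refl12 ⁻¹' setS
/-- The support. -/
noncomputable def supSet : Set Pt := domA ∪ setT ∪ setS ∪ setT' ∪ setS'

lemma isCompact_setT : IsCompact setT :=
  (isCompact_closedBall _ _).image_of_continuousOn continuousOn_brT

lemma isCompact_setS : IsCompact setS :=
  (isCompact_closedBall _ _).image_of_continuousOn continuousOn_brS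

lemma measurableSet_domA : MeasurableSet domA := measurableSet_closedBall

lemma measurableSet_setT' : MeasurableSet setT' :=
  refl12.continuous.measurable isCompact_setT.measurableSet

lemma measurableSet_setS' : MeasurableSet setS' :=
  refl12.continuous.measurable isCompact_setS.measurableSet

lemma measurableSet_supSet : MeasurableSet supSet :=
  (((measurableSet_domA.union isCompact_setT.measurableSet).union
    isCompact_setS.measurableSet).union measurableSet_setT').union measurableSet_setS'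

lemma near_setT {y : Pt} (h : y ∈ setT) : ‖y - ptP‖ ≤ 1 / 100 := by
  obtain ⟨a, ha, rfl⟩ := h
  linarith [brT_near ha]

lemma near_setS {y : Pt} (h : y ∈ setS) : ‖y + ptP‖ ≤ 1 / 100 := by
  obtain ⟨a, ha, rfl⟩ := h
  linarith [brS_near ha]

lemma near_setT' {y : Pt} (h : y ∈ setT') : ‖y - ptQ‖ ≤ 1 / 100 := by
  have := near_setT h
  rwa [← LinearIsometryEquiv.norm_map refl12, map_sub, refl12_refl12, ← ptQ] at this

lemma near_setS' {y : Pt} (h : y ∈ setS') : ‖y + ptQ‖ ≤ 1 / 100 := by
  have := near_setS h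
  rwa [← LinearIsometryEquiv.norm_map refl12, map_add, refl12_refl12, ← ptQ] at this

lemma near_domA {y : Pt} (h : y ∈ domA) : ‖y - 0‖ ≤ 1 / 100 := by
  rw [sub_zero]; linarith [domA_bound h]

lemma far_apart {x y a b : Pt} (hx : ‖x - a‖ ≤ 1 / 100) (hy : ‖y - b‖ ≤ 1 / 100)
    (h : 1 / 2 ≤ ‖a - b‖) : x ≠ y := fun he => by
  subst he
  have h1 := norm_sub_le (x - b) (x - a)
  rw [show x - b - (x - a) = a - b by abel] at h1
  linarith

lemma sqrt_two_bounds : 1 / 2 ≤ Real.sqrt 2 ∧ Real.sqrt 2 ≤ 1415 / 1000 :=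
  ⟨Real.le_sqrt_of_sq_le (by norm_num), Real.sqrt_le_iff.2 ⟨by norm_num, by norm_num⟩⟩

lemma disjoint_domA_setT : Disjoint domA setT := Set.disjoint_left.2 fun x h1 h2 =>
  far_apart (near_domA h1) (near_setT h2) (by rw [zero_sub, norm_neg, norm_ptP]; norm_num) rfl

lemma disjoint_domA_setS : Disjoint domA setS := Set.disjoint_left.2 fun x h1 h2 =>
  far_apart (b := -ptP) (near_domA h1) (by simpa [sub_neg_eq_add] using near_setS h2)
    (by rw [zero_sub, neg_neg, norm_ptP]; norm_num) rfl

lemma disjoint_domA_setT' : Disjoint domA setT' := Set.disjoint_left.2 fun x h1 h2 =>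
  far_apart (near_domA h1) (near_setT' h2) (by rw [zero_sub, norm_neg, norm_ptQ]; norm_num) rfl

lemma disjoint_domA_setS' : Disjoint domA setS' := Set.disjoint_left.2 fun x h1 h2 =>
  far_apart (b := -ptQ) (near_domA h1) (by simpa [sub_neg_eq_add] using near_setS' h2)
    (by rw [zero_sub, neg_neg, norm_ptQ]; norm_num) rfl

lemma disjoint_setT_setS : Disjoint setT setS := Set.disjoint_left.2 fun x h1 h2 =>
  far_apart (b := -ptP) (near_setT h1) (by simpa [sub_neg_eq_add] using near_setS h2)
    (by rw [show ptP - -ptP = -(-ptP - ptP) by abel, norm_neg, norm_two_ptP]; norm_num) rfl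

lemma disjoint_setT_setT' : Disjoint setT setT' := Set.disjoint_left.2 fun x h1 h2 =>
  far_apart (near_setT h1) (near_setT' h2) (by rw [norm_sub_ptPQ]; exact sqrt_two_bounds.1) rfl

lemma disjoint_setT_setS' : Disjoint setT setS' := Set.disjoint_left.2 fun x h1 h2 =>
  far_apart (b := -ptQ) (near_setT h1) (by simpa [sub_neg_eq_add] using near_setS' h2)
    (by rw [sub_neg_eq_add, norm_add_ptPQ]; exact sqrt_two_bounds.1) rfl

lemma disjoint_setS_setT' : Disjoint setS setT' := Set.disjoint_left.2 fun x h1 h2 =>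
  far_apart (a := -ptP) (by simpa [sub_neg_eq_add] using near_setS h1) (near_setT' h2)
    (by rw [show -ptP - ptQ = -(ptP + ptQ) by abel, norm_neg, norm_add_ptPQ]
        exact sqrt_two_bounds.1) rfl

lemma disjoint_setS_setS' : Disjoint setS setS' := Set.disjoint_left.2 fun x h1 h2 =>
  far_apart (a := -ptP) (b := -ptQ) (by simpa [sub_neg_eq_add] using near_setS h1)
    (by simpa [sub_neg_eq_add] using near_setS' h2)
    (by rw [show -ptP - -ptQ = -(ptP - ptQ) by abel, norm_neg, norm_sub_ptPQ]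
        exact sqrt_two_bounds.1) rfl

lemma disjoint_setT'_setS' : Disjoint setT' setS' := disjoint_setT_setS.preimage _

lemma refl12_mem_domA {x : Pt} (h : x ∈ domA) : refl12 x ∈ domA := by
  simpa [domA, mem_closedBall_zero_iff] using h

open Classical in
/-- The dual potential. -/
noncomputable def pot (x : Pt) : ℝ :=
  if x ∈ domA then potA x
  else if x ∈ setT then branchVal (invT x)
  else if x ∈ setS then potC x
  else if x ∈ setT' then branchVal (invT (refl12 x))
  else potC (refl12 x)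

lemma pot_domA {x : Pt} (h : x ∈ domA) : pot x = potA x := by rw [pot, if_pos h]

lemma pot_brT {a : Pt} (ha : a ∈ domA) : pot (brT a) = branchVal a := by
  have h : brT a ∈ setT := ⟨a, ha, rfl⟩
  rw [pot, if_neg (disjoint_domA_setT.notMem_of_mem_right h), if_pos h, invT_brT ha]

lemma pot_setS {z : Pt} (h : z ∈ setS) : pot z = potC z := by
  rw [pot, if_neg (disjoint_domA_setS.notMem_of_mem_right h),
    if_neg (disjoint_setT_setS.notMem_of_mem_right h), if_pos h]

lemma pot_setT' {y : Pt} (h : y ∈ setT') : pot y = pot (refl12 y) := by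
  have h' : refl12 y ∈ setT := h
  obtain ⟨a, ha, hay⟩ := h'
  rw [pot, if_neg (disjoint_domA_setT'.notMem_of_mem_right h),
    if_neg (disjoint_setT_setT'.notMem_of_mem_right h),
    if_neg (disjoint_setS_setT'.notMem_of_mem_right h), if_pos h, ← hay, invT_brT ha, pot_brT ha]

lemma pot_setS' {y : Pt} (h : y ∈ setS') : pot y = pot (refl12 y) := by
  rw [pot, if_neg (disjoint_domA_setS'.notMem_of_mem_right h),
    if_neg (disjoint_setT_setS'.notMem_of_mem_right h),
    if_neg (disjoint_setS_setS'.notMem_of_mem_right h),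
    if_neg (disjoint_setT'_setS'.notMem_of_mem_right h)]
  exact (pot_setS h).symm

lemma pot_refl_domA {x : Pt} (h : x ∈ domA) : pot (refl12 x) = pot x := by
  rw [pot_domA h, pot_domA (refl12_mem_domA h), potA, potA, LinearIsometryEquiv.norm_map]

lemma pot_le_domA {x : Pt} (h : x ∈ domA) : pot x ≤ 45 / 2 := by
  rw [pot_domA h, potA, bigM]
  linarith [sq_nonneg ‖x‖]

lemma norm_lam : ‖lam‖ ≤ 5 / 4 := by
  refine (norm_add_le _ _).trans ?_
  rw [norm_force (by simpa using ptP_ne), norm_force_two, norm_neg, norm_ptP]; norm_num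

lemma potC_bounds {z : Pt} (h : ‖z + ptP‖ ≤ 1 / 10 ^ 7) :
    -1001 / 100 ≤ potC z ∧ potC z ≤ -999 / 100 := by
  have hi := (abs_real_inner_le_norm lam (z + ptP)).trans
    (mul_le_mul norm_lam h (norm_nonneg _) (by norm_num))
  have h2 : ‖z + ptP‖ ^ 2 ≤ (1 / 10 ^ 7) ^ 2 := pow_le_pow_left₀ (norm_nonneg _) h 2
  rw [abs_le] at hi
  simp only [potC, bigM]
  constructor <;> linarith [sq_nonneg ‖z + ptP‖, hi.1, hi.2]

lemma pot_le_setT {y : Pt} (h : y ∈ setT) : pot y ≤ -998 / 100 := by
  obtain ⟨a, ha, rfl⟩ := h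
  rw [pot_brT ha, branchVal]
  have h1 := domA_bound ha
  have h2 := brS_near ha
  have h3 := brT_near ha
  have hA : 45 / 2 - 1 / 10 ^ 6 ≤ potA a := by
    have : ‖a‖ ^ 2 ≤ (1 / 10 ^ 11) ^ 2 := pow_le_pow_left₀ (norm_nonneg _) h1 2
    rw [potA, bigM]; linarith
  have hC := (potC_bounds h2).1
  have d1 : 999 / 1000 ≤ dist a (brT a) := by
    rw [dist_eq_norm]
    refine near_add_norm (b := -ptP) (e := 1 / 1000) ?_ (by rw [norm_neg, norm_ptP]; norm_num)
    rw [show a - brT a - -ptP = a - (brT a - ptP) by abel]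
    linarith [norm_sub_le a (brT a - ptP)]
  have d2 : 999 / 1000 ≤ dist a (brS a) := by
    rw [dist_eq_norm]
    refine near_add_norm (b := ptP) (e := 1 / 1000) ?_ (by rw [norm_ptP]; norm_num)
    rw [show a - brS a - ptP = a - (brS a + ptP) by abel]
    linarith [norm_sub_le a (brS a + ptP)]
  have d3 : 1999 / 1000 ≤ dist (brT a) (brS a) := by
    rw [dist_comm, dist_eq_norm]
    refine near_add_norm (b := -ptP - ptP) (e := 1 / 1000) ?_ (by rw [norm_two_ptP]; norm_num)
    rw [show brS a - brT a - (-ptP - ptP) = (brS a + ptP) - (brT a - ptP) by abel]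
    linarith [norm_sub_le (brS a + ptP) (brT a - ptP)]
  have e1 := inv_anti₀ (by norm_num) d1
  have e2 := inv_anti₀ (by norm_num) d2
  have e3 := inv_anti₀ (by norm_num) d3
  rw [costR]
  norm_num at e1 e2 e3 ⊢
  linarith

lemma pot_le_setS {y : Pt} (h : y ∈ setS) : pot y ≤ -998 / 100 := by
  rw [pot_setS h]
  obtain ⟨a, ha, rfl⟩ := h
  linarith [(potC_bounds (brS_near ha)).2]

lemma pot_le_setT' {y : Pt} (h : y ∈ setT') : pot y ≤ -998 / 100 := by
  rw [pot_setT' h]; exact pot_le_setT h

lemma pot_le_setS' {y : Pt} (h : y ∈ setS') : pot y ≤ -998 / 100 := by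
  rw [pot_setS' h]; exact pot_le_setS h

/-- Number of entries of a triple in a set. -/
noncomputable def cnt (A : Set Pt) (x y z : Pt) : ℝ≥0∞ :=
  A.indicator 1 x + A.indicator 1 y + A.indicator 1 z

/-- The combinatorial content of lying on one of the two branches. -/
def Tracks (x y z : Pt) : Prop :=
  cnt domA x y z = 1 ∧ cnt setT x y z ≤ 1 ∧
    ∀ E ⊆ domA, cnt (brT '' E) x y z = cnt (brS '' E) x y z ∧
      cnt (brT '' E) x y z = cnt E x y z * cnt setT x y z

/-- Strict inequality, or equality on a branch. -/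
def Good (x y z : Pt) : Prop :=
  pot x + pot y + pot z < costR x y z ∨
    (pot x + pot y + pot z = costR x y z ∧ Tracks x y z)

lemma cnt_swap (A : Set Pt) (x y z : Pt) :
    cnt A x y z = cnt A y x z ∧ cnt A x y z = cnt A x z y := by
  constructor <;> simp only [cnt] <;> ring

lemma Good.swap12 {x y z : Pt} (h : Good x y z) : Good y x z := by
  have hs : pot y + pot x + pot z = pot x + pot y + pot z := by ring
  have hc : costR y x z = costR x y z := by simp only [costR, dist_comm y x]; ring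
  unfold Good Tracks at *
  simp only [← (cnt_swap _ x y z).1, hs, hc]
  exact h

lemma Good.swap23 {x y z : Pt} (h : Good x y z) : Good x z y := by
  have hs : pot x + pot z + pot y = pot x + pot y + pot z := by ring
  have hc : costR x z y = costR x y z := by simp only [costR, dist_comm z y]; ring
  unfold Good Tracks at *
  simp only [← (cnt_swap _ x y z).2, hs, hc]
  exact h

lemma indicator_image_of_mem {f : Pt → Pt} (hf : Set.InjOn f domA) {E : Set Pt} (hE : E ⊆ domA)
    {a : Pt} (ha : a ∈ domA) :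
    (f '' E).indicator (1 : Pt → ℝ≥0∞) (f a) = E.indicator 1 a := by
  by_cases h : a ∈ E
  · simp [h, Set.mem_image_of_mem f h]
  · have : f a ∉ f '' E := by
      rintro ⟨b, hb, hba⟩
      exact h (hf (hE hb) ha hba ▸ hb)
    simp [h, this]

lemma tracks_branch {a : Pt} (ha : a ∈ domA) : Tracks a (brT a) (brS a) := by
  have hT : brT a ∈ setT := ⟨a, ha, rfl⟩
  have hS : brS a ∈ setS := ⟨a, ha, rfl⟩
  have z1 := disjoint_domA_setT.notMem_of_mem_left ha
  have z2 := disjoint_domA_setS.notMem_of_mem_left ha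
  have z3 := disjoint_domA_setT.notMem_of_mem_right hT
  have z4 := disjoint_domA_setS.notMem_of_mem_right hS
  have z5 := disjoint_setT_setS.notMem_of_mem_right hS
  have z6 := disjoint_setT_setS.notMem_of_mem_left hT
  refine ⟨by simp [cnt, ha, z3, z4], by simp [cnt, z1, hT, z5], fun E hE => ?_⟩
  have hTE : brT '' E ⊆ setT := Set.image_mono hE
  have hSE : brS '' E ⊆ setS := Set.image_mono hE
  have a1 : a ∉ brT '' E := fun h => z1 (hTE h)
  have a2 : a ∉ brS '' E := fun h => z2 (hSE h)
  have b1 : brS a ∉ brT '' E := fun h => z5 (hTE h)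
  have b2 : brT a ∉ brS '' E := fun h => z6 (hSE h)
  have c1 : brT a ∉ E := fun h => z3 (hE h)
  have c2 : brS a ∉ E := fun h => z4 (hE h)
  simp [cnt, a1, a2, b1, b2, c1, c2, z1, hT, z5, indicator_image_of_mem brT_injOn hE ha,
    indicator_image_of_mem brS_injOn hE ha]

lemma tracks_other {x y z : Pt} (hx : x ∈ domA) (hy : y ∈ setT') (hz : z ∈ setS') :
    Tracks x y z := by
  have a1 := disjoint_domA_setT.notMem_of_mem_left hx
  have a2 := disjoint_setT_setT'.notMem_of_mem_right hy
  have a3 := disjoint_setT_setS'.notMem_of_mem_right hz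
  have b1 := disjoint_domA_setS.notMem_of_mem_left hx
  have b2 := disjoint_setS_setT'.notMem_of_mem_right hy
  have b3 := disjoint_setS_setS'.notMem_of_mem_right hz
  have c2 := disjoint_domA_setT'.notMem_of_mem_right hy
  have c3 := disjoint_domA_setS'.notMem_of_mem_right hz
  refine ⟨by simp [cnt, hx, c2, c3], by simp [cnt, a1, a2, a3], fun E hE => ?_⟩
  have h : ∀ w, w ∉ setT → w ∉ brT '' E := fun w hw h => hw (Set.image_mono hE h)
  have h' : ∀ w, w ∉ setS → w ∉ brS '' E := fun w hw h => hw (Set.image_mono hE h)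
  simp [cnt, h x a1, h y a2, h z a3, h' x b1, h' y b2, h' z b3, a1, a2, a3]

lemma matched_ineq {x y z : Pt} (hx : x ∈ domA) (hy : y ∈ setT) (hz : z ∈ setS) :
    pot x + pot y + pot z < costR x y z ∨
      ∃ a ∈ domA, x = a ∧ y = brT a ∧ z = brS a ∧ pot x + pot y + pot z = costR x y z := by
  obtain ⟨a, ha, rfl⟩ := hy
  rw [pot_domA hx, pot_brT ha, pot_setS hz]
  have h := branch_min ha (x' := x) (z' := z) (by linarith [domA_bound hx]) (near_setS hz)
  by_cases he : x = a ∧ z = brS a
  · obtain ⟨rfl, rfl⟩ := he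
    refine Or.inr ⟨x, ha, rfl, rfl, rfl, ?_⟩
    rw [branchVal]; ring
  · left
    have : 0 < ‖x - a‖ ^ 2 + ‖z - brS a‖ ^ 2 := by
      rcases not_and_or.1 he with he | he
      · have := norm_pos_iff.2 (sub_ne_zero.2 he); positivity
      · have := norm_pos_iff.2 (sub_ne_zero.2 he); positivity
    linarith

lemma good_TS {x y z : Pt} (hx : x ∈ domA) (hy : y ∈ setT) (hz : z ∈ setS) : Good x y z := by
  rcases matched_ineq hx hy hz with h | ⟨a, ha, rfl, rfl, rfl, h⟩
  · exact Or.inl h
  · exact Or.inr ⟨h, tracks_branch ha⟩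

lemma good_T'S' {x y z : Pt} (hx : x ∈ domA) (hy : y ∈ setT') (hz : z ∈ setS') : Good x y z := by
  have hc : costR (refl12 x) (refl12 y) (refl12 z) = costR x y z := by
    simp [costR, refl12.dist_map]
  have hs : pot (refl12 x) + pot (refl12 y) + pot (refl12 z) = pot x + pot y + pot z := by
    rw [pot_refl_domA hx, ← pot_setT' hy, ← pot_setS' hz]
  rcases matched_ineq (refl12_mem_domA hx) (show refl12 y ∈ setT from hy)
    (show refl12 z ∈ setS from hz) with h | ⟨a, -, -, -, -, h⟩
  · left; rwa [hc, hs] at h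
  · right; rw [hc, hs] at h; exact ⟨h, tracks_other hx hy hz⟩

lemma inv_dist_ge {x y a b : Pt} {L B : ℝ} (hne : x ≠ y) (hx : ‖x - a‖ ≤ 1 / 100)
    (hy : ‖y - b‖ ≤ 1 / 100) (hab : ‖a - b‖ ≤ L) (hB : L + 1 / 50 ≤ B) :
    B⁻¹ ≤ (dist x y)⁻¹ := by
  refine inv_anti₀ (dist_pos.2 hne) ?_
  rw [dist_eq_norm, show x - y = (x - a) + (a - b) - (y - b) by abel]
  linarith [norm_sub_le ((x - a) + (a - b)) (y - b), norm_add_le (x - a) (a - b)]

lemma strict_adjacent {x y z P Q : Pt} (hxy : x ≠ y) (hxz : x ≠ z) (hyz : y ≠ z) (hx : x ∈ domA)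
    (hy : ‖y - P‖ ≤ 1 / 100) (hz : ‖z - Q‖ ≤ 1 / 100) (hP : ‖P‖ ≤ 1) (hQ : ‖Q‖ ≤ 1)
    (hPQ : ‖P - Q‖ ≤ 1415 / 1000) (py : pot y ≤ -998 / 100) (pz : pot z ≤ -998 / 100) :
    Good x y z := by
  left
  have e1 := inv_dist_ge (B := 102 / 100) hxy (near_domA hx) hy (L := 1)
    (by simpa using hP) (by norm_num)
  have e2 := inv_dist_ge (B := 102 / 100) hxz (near_domA hx) hz (L := 1)
    (by simpa using hQ) (by norm_num)
  have e3 := inv_dist_ge (B := 1435 / 1000) hyz hy hz hPQ (by norm_num)
  have := pot_le_domA hx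
  rw [costR]
  norm_num at e1 e2 e3 ⊢
  linarith

lemma good_central {x y z : Pt} (hxy : x ≠ y) (hxz : x ≠ z) (hyz : y ≠ z) (hx : x ∈ domA)
    (hy : y ∈ supSet) (hz : z ∈ supSet) (hy' : y ∉ domA) (hz' : z ∉ domA) : Good x y z := by
  have nP := norm_ptP
  have nQ := norm_ptQ
  have s2 := sqrt_two_bounds.2
  have hpm : ‖ptP - ptQ‖ ≤ 1415 / 1000 := by rw [norm_sub_ptPQ]; exact s2
  have hpp : ‖ptP + ptQ‖ ≤ 1415 / 1000 := by rw [norm_add_ptPQ]; exact s2
  have key : ∀ P Q : Pt, ‖y - P‖ ≤ 1 / 100 → ‖z - Q‖ ≤ 1 / 100 → ‖P‖ ≤ 1 → ‖Q‖ ≤ 1 →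
      ‖P - Q‖ ≤ 1415 / 1000 → pot y ≤ -998 / 100 → pot z ≤ -998 / 100 → Good x y z :=
    fun P Q a b c d e f g => strict_adjacent hxy hxz hyz hx a b c d e f g
  rcases hy with (((hy | hy) | hy) | hy) | hy
  · exact absurd hy hy'
  all_goals rcases hz with (((hz | hz) | hz) | hz) | hz
  all_goals first
    | exact absurd hz hz'
    | exact good_TS hx hy hz
    | exact good_T'S' hx hy hz
    | exact (good_TS hx hz hy).swap23
    | exact (good_T'S' hx hz hy).swap23
    | skip
  · exact key ptP ptP (near_setT hy) (near_setT hz) nP.le nP.le (by simp; norm_num)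
      (pot_le_setT hy) (pot_le_setT hz)
  · exact key ptP ptQ (near_setT hy) (near_setT' hz) nP.le nQ.le hpm
      (pot_le_setT hy) (pot_le_setT' hz)
  · exact key ptP (-ptQ) (near_setT hy) (by simpa using near_setS' hz) nP.le (by simp [nQ])
      (by simpa using hpp) (pot_le_setT hy) (pot_le_setS' hz)
  · exact key (-ptP) (-ptP) (by simpa using near_setS hy) (by simpa using near_setS hz)
      (by simp [nP]) (by simp [nP]) (by simp; norm_num) (pot_le_setS hy) (pot_le_setS hz)
  · exact key (-ptP) ptQ (by simpa using near_setS hy) (near_setT' hz)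
      (by simp [nP]) nQ.le (by rw [← norm_neg]; simpa [neg_sub, sub_neg_eq_add, add_comm] using hpp)
      (pot_le_setS hy) (pot_le_setT' hz)
  · exact key (-ptP) (-ptQ) (by simpa using near_setS hy) (by simpa using near_setS' hz)
      (by simp [nP]) (by simp [nQ]) (by rw [← norm_neg]; simpa [add_comm, ← sub_eq_add_neg] using hpm)
      (pot_le_setS hy) (pot_le_setS' hz)
  · exact key ptQ ptP (near_setT' hy) (near_setT hz) nQ.le nP.le (by rw [norm_sub_rev]; exact hpm)
      (pot_le_setT' hy) (pot_le_setT hz)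
  · exact key ptQ (-ptP) (near_setT' hy) (by simpa using near_setS hz) nQ.le (by simp [nP])
      (by simpa [add_comm] using hpp) (pot_le_setT' hy) (pot_le_setS hz)
  · exact key ptQ ptQ (near_setT' hy) (near_setT' hz) nQ.le nQ.le (by simp; norm_num)
      (pot_le_setT' hy) (pot_le_setT' hz)
  · exact key (-ptQ) ptP (by simpa using near_setS' hy) (near_setT hz) (by simp [nQ]) nP.le
      (by rw [← norm_neg]; simpa [neg_sub, sub_neg_eq_add, add_comm] using hpp)
      (pot_le_setS' hy) (pot_le_setT hz)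
  · exact key (-ptQ) (-ptP) (by simpa using near_setS' hy) (by simpa using near_setS hz)
      (by simp [nQ]) (by simp [nP]) (by simpa [add_comm, ← sub_eq_add_neg] using hpm)
      (pot_le_setS' hy) (pot_le_setS hz)
  · exact key (-ptQ) (-ptQ) (by simpa using near_setS' hy) (by simpa using near_setS' hz)
      (by simp [nQ]) (by simp [nQ]) (by simp; norm_num) (pot_le_setS' hy) (pot_le_setS' hz)

lemma pot_le_of_notMem {x : Pt} (hx : x ∈ supSet) (h : x ∉ domA) : pot x ≤ -998 / 100 := by
  rcases hx with (((hx | hx) | hx) | hx) | hx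
  exacts [absurd hx h, pot_le_setT hx, pot_le_setS hx, pot_le_setT' hx, pot_le_setS' hx]

lemma pot_le_any {x : Pt} (hx : x ∈ supSet) : pot x ≤ 45 / 2 := by
  by_cases h : x ∈ domA
  · exact pot_le_domA h
  · linarith [pot_le_of_notMem hx h]

lemma good_two_central {x y z : Pt} (hxy : x ≠ y) (hx : x ∈ domA) (hy : y ∈ domA)
    (hz : z ∈ supSet) : Good x y z := by
  left
  have h : dist x y ≤ 1 / 1000 := by
    rw [dist_eq_norm]
    linarith [norm_sub_le x y, domA_bound hx, domA_bound hy]
  have e := inv_anti₀ (dist_pos.2 hxy) h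
  have := pot_le_domA hx
  have := pot_le_domA hy
  have := pot_le_any hz
  have h1 : 0 ≤ (dist x z)⁻¹ := by positivity
  have h2 : 0 ≤ (dist y z)⁻¹ := by positivity
  rw [costR]
  norm_num at e
  linarith

theorem good_all {x y z : Pt} (hxy : x ≠ y) (hxz : x ≠ z) (hyz : y ≠ z) (hx : x ∈ supSet)
    (hy : y ∈ supSet) (hz : z ∈ supSet) : Good x y z := by
  by_cases ax : x ∈ domA <;> by_cases ay : y ∈ domA <;> by_cases az : z ∈ domA
  · exact good_two_central hxy ax ay hz
  · exact good_two_central hxy ax ay hz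
  · exact (good_two_central hxz ax az hy).swap23
  · exact good_central hxy hxz hyz ax hy hz ay az
  · exact ((good_two_central hyz ay az hx).swap23).swap12
  · exact (good_central hxy.symm hyz hxz ay hx hz ax az).swap12
  · exact ((good_central hxz.symm hyz.symm hxy az hx hy ax ay).swap12).swap23
  · left
    have := pot_le_of_notMem hx ax
    have := pot_le_of_notMem hy ay
    have := pot_le_of_notMem hz az
    have : 0 ≤ costR x y z := by unfold costR; positivity
    linarith

end Vale.Agent.P121
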